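import Mathlib

namespace Vale.Agent.P050

/-- circular distance from `0` of a residue `t` modulo `N + 1`: `min (t, N + 1 - t)` -/
def circ {N : ℕ} (t : Fin (N + 1)) : ℕ := min t.val (N + 1 - t.val)

lemma circ_neg {N : ℕ} (t : Fin (N + 1)) : circ (-t) = circ t := by
  unfold circ
  rw [Fin.coe_neg]
  have ht := t.isLt
  by_cases h : t.val = 0
  · rw [h]; simp
  · have h2 : (N + 1 - t.val) % (N + 1) = N + 1 - t.val := Nat.mod_eq_of_lt (by omega)
    rw [h2]
    omega

/-- the graph on the discrete torus `Z/(q 0 + 1) x ... x Z/(q (n-1) + 1)` (arbitrary moduli `q i + 1 ≥ 1`)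
in which two distinct points `x`, `y` are adjacent when the vector of the circular distances of their
coordinates, `i ↦ circ (y i - x i)`, belongs to `U` -/
def torusGraph (n : ℕ) (q : Fin n → ℕ) (U : Set (Fin n → ℕ)) :
    SimpleGraph (∀ i : Fin n, Fin (q i + 1)) where
  Adj x y := x ≠ y ∧ (fun i => circ (y i - x i)) ∈ U
  symm := ⟨fun x y h => ⟨h.1.symm, by
    have e : (fun i => circ (x i - y i)) = (fun i => circ (y i - x i)) := by
      funext i
      rw [← circ_neg (y i - x i), neg_sub]
    rw [e]; exact h.2⟩⟩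
  loopless := ⟨fun x h => h.1 rfl⟩

end Vale.Agent.P050
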