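import Mathlib
import Vale.Agent.P050.CircDef

/-! one coordinate: reflections of a cycle -/

namespace Vale.Agent.P050

lemma val_sub' {N : ℕ} (x y : Fin (N + 1)) :
    (x - y).val = if y.val ≤ x.val then x.val - y.val else N + 1 + x.val - y.val := by
  split_ifs with h
  · exact Fin.coe_sub_iff_le.mpr (Fin.le_def.mpr h)
  · exact Fin.coe_sub_iff_lt.mpr (Fin.lt_def.mpr (not_le.mp h))

/-- the side of `t` with respect to the reflection `t ↦ c - t` -/
def side {N : ℕ} (c t : Fin (N + 1)) : ℝ :=
  if 2 * t.val < c.val ∨ c.val + (N + 1) < 2 * t.val then 1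
  else if c.val < 2 * t.val ∧ 2 * t.val < c.val + (N + 1) then -1 else 0

lemma side_vals {N : ℕ} (c t : Fin (N + 1)) : side c t = 1 ∨ side c t = 0 ∨ side c t = -1 := by
  unfold side
  split_ifs <;> simp

lemma side_eq_one {N : ℕ} (c t : Fin (N + 1)) :
    side c t = 1 ↔ (2 * t.val < c.val ∨ c.val + (N + 1) < 2 * t.val) := by
  unfold side
  split_ifs with h1 h2
  · simp [h1]
  · simp only [h1, iff_false]; norm_num
  · simp only [h1, iff_false]; norm_num

lemma side_eq_neg_one {N : ℕ} (c t : Fin (N + 1)) :
    side c t = -1 ↔ (c.val < 2 * t.val ∧ 2 * t.val < c.val + (N + 1)) := by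
  unfold side
  split_ifs with h1 h2
  · constructor
    · intro h; norm_num at h
    · intro h; omega
  · simp [h2]
  · simp only [h2, iff_false]; norm_num

lemma side_eq_zero {N : ℕ} (c t : Fin (N + 1)) :
    side c t = 0 ↔ (2 * t.val = c.val ∨ 2 * t.val = c.val + (N + 1)) := by
  unfold side
  split_ifs with h1 h2
  · constructor
    · intro h; norm_num at h
    · intro h; omega
  · constructor
    · intro h; norm_num at h
    · intro h; omega
  · constructor
    · intro _; omega
    · intro _; rfl

lemma side_refl {N : ℕ} (c t : Fin (N + 1)) : side c (c - t) = - side c t := by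
  have hc := c.isLt
  have ht := t.isLt
  have hv := val_sub' c t
  rcases side_vals c t with h | h | h
  · rw [h, side_eq_neg_one]
    rw [side_eq_one] at h
    split_ifs at hv <;> omega
  · rw [h, neg_zero, side_eq_zero]
    rw [side_eq_zero] at h
    split_ifs at hv <;> omega
  · rw [h, neg_neg, side_eq_one]
    rw [side_eq_neg_one] at h
    split_ifs at hv <;> omega

lemma side_fix {N : ℕ} (c t : Fin (N + 1)) (h : side c t = 0) : c - t = t := by
  have hc := c.isLt
  have ht := t.isLt
  have hv := val_sub' c t
  rw [side_eq_zero] at h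
  apply Fin.ext
  split_ifs at hv <;> omega

lemma circ_refl_le {N : ℕ} (c t t' : Fin (N + 1)) (h : side c t = side c t') (h0 : side c t ≠ 0) :
    circ (t' - t) ≤ circ ((c - t') - t) := by
  have hc := c.isLt
  have ht := t.isLt
  have ht' := t'.isLt
  have hv1 := val_sub' t' t
  have hv2 := val_sub' c t'
  have hv3 := val_sub' (c - t') t
  unfold circ
  rcases side_vals c t with h1 | h1 | h1
  · have h2 : side c t' = 1 := by rw [← h, h1]
    rw [side_eq_one] at h1 h2
    split_ifs at hv1 hv2 hv3 <;> omega
  · exact absurd h1 h0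
  · have h2 : side c t' = -1 := by rw [← h, h1]
    rw [side_eq_neg_one] at h1 h2
    split_ifs at hv1 hv2 hv3 <;> omega

/-- an even function on a cycle which increases along the unit steps of the first half is monotone in the
circular distance -/
lemma circ_mono_fin {N : ℕ} (f : Fin (N + 1) → ℝ) (hev : ∀ b, f (-b) = f b)
    (hst : ∀ (j : ℕ) (h : 2 * j + 2 ≤ N + 1), f ⟨j, by omega⟩ ≤ f ⟨j + 1, by omega⟩) :
    ∀ b b' : Fin (N + 1), circ b ≤ circ b' → f b ≤ f b' := by
  set F : ℕ → ℝ := fun k => if h : k < N + 1 then f ⟨k, h⟩ else 0 with hF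
  have hstep : ∀ j, 2 * j + 2 ≤ N + 1 → F j ≤ F (j + 1) := by
    intro j hj
    simp only [hF]
    rw [dif_pos (by omega), dif_pos (by omega)]
    exact hst j hj
  have hmono : ∀ k k', k ≤ k' → 2 * k' ≤ N + 1 → F k ≤ F k' := by
    intro k k' hkk
    induction k', hkk using Nat.le_induction with
    | base => intro _; exact le_refl _
    | succ k' _ ih =>
      intro h
      exact (ih (by omega)).trans (hstep k' (by omega))
  have hrep : ∀ b : Fin (N + 1), f b = F (circ b) := by
    intro b
    have hb := b.isLt
    by_cases h : b.val ≤ N + 1 - b.val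
    · have e : circ b = b.val := by unfold circ; omega
      rw [e]
      simp only [hF]
      rw [dif_pos hb]
    · have e : circ b = (-b).val := by
        unfold circ
        rw [Fin.coe_neg, Nat.mod_eq_of_lt (by omega)]
        omega
      rw [e, ← hev b]
      simp only [hF]
      rw [dif_pos (-b).isLt]
  intro b b' hbb
  rw [hrep b, hrep b']
  apply hmono _ _ hbb
  have hb' := b'.isLt
  unfold circ
  omega

end Vale.Agent.P050
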