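import Mathlib

namespace Vale.Agent.P050

/-- the graph on the words `x = (x_i)_{i < n}` with letters `x_i ∈ Fin (q i + 2)` (alphabet sizes
`q i + 2 ≥ 2` arbitrary), in which two distinct words are adjacent when the set of positions in which they
differ belongs to `S` -/
def hammingGraph (n : ℕ) (q : Fin n → ℕ) (S : Set (Finset (Fin n))) :
    SimpleGraph (∀ i : Fin n, Fin (q i + 2)) where
  Adj x y := x ≠ y ∧ Finset.univ.filter (fun i => x i ≠ y i) ∈ S
  symm := ⟨fun x y h => ⟨h.1.symm, by
    have e : Finset.univ.filter (fun i => y i ≠ x i) = Finset.univ.filter (fun i => x i ≠ y i) := by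
      ext i; simp [ne_comm]
    rw [e]; exact h.2⟩⟩
  loopless := ⟨fun x h => h.1 rfl⟩

end Vale.Agent.P050
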