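import Mathlib

namespace Vale.Agent.P050

/-- homomorphism density `t(H,G) = hom(H,G) / |V(G)|^|V(H)|` -/
noncomputable def homDensity {V W : Type*} [Fintype V] [Fintype W]
    (H : SimpleGraph V) (G : SimpleGraph W) : ℝ :=
  (Nat.card (H →g G) : ℝ) / (Fintype.card W : ℝ) ^ Fintype.card V

/-- edge density `p(G) = 2 |E(G)| / |V(G)|^2` -/
noncomputable def edgeDensity {W : Type*} [Fintype W] (G : SimpleGraph W) : ℝ :=
  2 * (Nat.card G.edgeSet : ℝ) / (Fintype.card W : ℝ) ^ 2

/-- complement reducible graphs (cographs): every set of at least two vertices splits into two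
nonempty parts which are either completely non-adjacent or completely adjacent to each other -/
def IsCograph {W : Type*} [DecidableEq W] (G : SimpleGraph W) : Prop :=
  ∀ S : Finset W, 2 ≤ S.card → ∃ T ⊆ S, T.Nonempty ∧ (S \ T).Nonempty ∧
    ((∀ a ∈ T, ∀ b ∈ S \ T, ¬ G.Adj a b) ∨ (∀ a ∈ T, ∀ b ∈ S \ T, G.Adj a b))

end Vale.Agent.P050
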