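import Mathlib

open Finset

namespace Vale.Agent.P050

variable {V : Type*} [Fintype V] [DecidableEq V]

/-- sign attached to a boolean -/
def eps (t : Bool) : ℝ := if t then -1 else 1

lemma eps_true : eps true = -1 := by simp [eps]
lemma eps_false : eps false = 1 := by simp [eps]

lemma eps_mul_self (t : Bool) : eps t * eps t = 1 := by
  cases t <;> simp [eps]

lemma griffiths_base (z : V → ℝ) (n : V → ℕ) :
    0 ≤ ∑ T : V → Bool, ∏ w, (z w * eps (T w)) ^ (n w) := by
  have h : ∑ T : V → Bool, ∏ w, (z w * eps (T w)) ^ (n w)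
      = ∏ w, ∑ t : Bool, (z w * eps t) ^ (n w) := by
    rw [Finset.prod_univ_sum, Fintype.piFinset_univ]
  rw [h]
  apply Finset.prod_nonneg
  intro w _
  simp only [Fintype.sum_bool, eps_true, eps_false, mul_neg, mul_one]
  rcases Nat.even_or_odd (n w) with h | h
  · have h1 := h.pow_nonneg (z w)
    have h2 := h.pow_nonneg (-z w)
    linarith
  · rw [h.neg_pow]; linarith

/-- raise one exponent by one -/
def bump (n : V → ℕ) (a : V) : V → ℕ := fun w => n w + if w = a then 1 else 0

lemma mono_mul (f : V → ℝ) (n : V → ℕ) (a : V) :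
    (∏ w, f w ^ (n w)) * f a = ∏ w, f w ^ (bump n a w) := by
  have : ∏ w, f w ^ (bump n a w)
      = (∏ w, f w ^ (n w)) * ∏ w, f w ^ (if w = a then 1 else 0) := by
    rw [← Finset.prod_mul_distrib]
    apply Finset.prod_congr rfl
    intro w _
    simp [bump, pow_add]
  rw [this]
  congr 1
  rw [Finset.prod_eq_single a]
  · simp
  · intro b _ hb
    simp [hb]
  · intro h; exact absurd (Finset.mem_univ a) h

lemma griffiths (z : V → ℝ) (α β : V × V → ℝ) (hα : ∀ e, 0 ≤ α e) (hβ : ∀ e, 0 ≤ β e)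
    (E : Finset (V × V)) : ∀ n : V → ℕ,
    0 ≤ ∑ T : V → Bool, (∏ w, (z w * eps (T w)) ^ (n w)) *
      ∏ e ∈ E, (α e + β e * ((z e.1 * eps (T e.1)) * (z e.2 * eps (T e.2)))) := by
  induction E using Finset.induction_on with
  | empty => intro n; simpa using griffiths_base z n
  | insert e E he ih =>
    intro n
    have key : ∀ T : V → Bool, (∏ w, (z w * eps (T w)) ^ (n w)) *
        ∏ e' ∈ insert e E, (α e' + β e' * ((z e'.1 * eps (T e'.1)) * (z e'.2 * eps (T e'.2))))
        = α e * ((∏ w, (z w * eps (T w)) ^ (n w)) *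
            ∏ e' ∈ E, (α e' + β e' * ((z e'.1 * eps (T e'.1)) * (z e'.2 * eps (T e'.2)))))
          + β e * ((∏ w, (z w * eps (T w)) ^ (bump (bump n e.1) e.2 w)) *
            ∏ e' ∈ E, (α e' + β e' * ((z e'.1 * eps (T e'.1)) * (z e'.2 * eps (T e'.2))))) := by
      intro T
      rw [Finset.prod_insert he, ← mono_mul (fun w => z w * eps (T w)) (bump n e.1) e.2,
        ← mono_mul (fun w => z w * eps (T w)) n e.1]
      ring
    simp_rw [key]
    rw [Finset.sum_add_distrib, ← Finset.mul_sum, ← Finset.mul_sum]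
    exact add_nonneg (mul_nonneg (hα e) (ih n)) (mul_nonneg (hβ e) (ih _))

end Vale.Agent.P050
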