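import Mathlib
import Vale.Agent.P050.Griffiths

open Finset

namespace Vale.Agent.P050

variable {V : Type*} [Fintype V] [DecidableEq V]
variable {Ω : Type*} [Fintype Ω] [DecidableEq Ω]

/-- weight of a configuration -/
def wt (m : V → Ω → ℝ) (K : Ω → Ω → ℝ) (E : Finset (V × V)) (φ : V → Ω) : ℝ :=
  (∏ v, m v (φ v)) * ∏ e ∈ E, K (φ e.1) (φ e.2)

/-- unnormalised two point function -/
def twoPt (m : V → Ω → ℝ) (K : Ω → Ω → ℝ) (E : Finset (V × V)) (u v : V) (x y : Ω) : ℝ :=
  ∑ φ : V → Ω, if φ u = x ∧ φ v = y then wt m K E φ else 0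

/-- apply the involution on the vertices selected by `T` -/
def flipBy (τ : Ω → Ω) (T : V → Bool) (φ : V → Ω) : V → Ω :=
  fun w => if T w then τ (φ w) else φ w

lemma flipBy_invol (τ : Ω → Ω) (hτ : Function.Involutive τ) (T : V → Bool) :
    Function.Involutive (flipBy τ T) := by
  intro φ
  funext w
  unfold flipBy
  by_cases h : T w
  · simp [h, hτ (φ w)]
  · simp [h]

lemma ind_A (τ : Ω → Ω) (hτ : Function.Involutive τ) (s : Ω → ℝ)
    (hsτ : ∀ x, s (τ x) = - s x) (x0 : Ω) (hx0 : s x0 = 1) (ξ : Ω) (t : Bool) :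
    (if (if t then τ ξ else ξ) = x0 then (1:ℝ) else 0)
      = (if ξ = x0 ∨ ξ = τ x0 then 1 else 0) * ((1 + s ξ * eps t) / 2) := by
  have hne : τ x0 ≠ x0 := by
    intro h
    have := hsτ x0
    rw [h, hx0] at this
    linarith
  by_cases h1 : ξ = x0
  · subst h1
    cases t
    · simp [eps, hx0]
    · simp [eps, hx0, hne]
  · by_cases h2 : ξ = τ x0
    · subst h2
      have hs : s (τ x0) = -1 := by rw [hsτ, hx0]
      cases t
      · simp [eps, hs, hne]
      · simp [eps, hs, hτ x0]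
    · have h3 : τ ξ ≠ x0 := by
        intro h
        apply h2
        rw [← h, hτ ξ]
      cases t
      · simp [h1, h2]
      · simp [h1, h2, h3]

lemma ind_B (τ : Ω → Ω) (hτ : Function.Involutive τ) (s : Ω → ℝ)
    (hsτ : ∀ x, s (τ x) = - s x) (y0 : Ω) (hy0 : s y0 = 1) (ξ : Ω) (t : Bool) :
    (if (if t then τ ξ else ξ) = τ y0 then (1:ℝ) else 0)
      = (if ξ = y0 ∨ ξ = τ y0 then 1 else 0) * ((1 - s ξ * eps t) / 2) := by
  have h := ind_A τ hτ s hsτ y0 hy0 ξ (!t)
  have e1 : ((if t then τ ξ else ξ) = τ y0) ↔ ((if (!t) then τ ξ else ξ) = y0) := by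
    cases t
    · simp only [Bool.false_eq_true, if_false, Bool.not_false, if_true]
      constructor
      · intro h; rw [h, hτ y0]
      · intro h; rw [← h, hτ ξ]
    · simp only [if_true, Bool.not_true, Bool.false_eq_true, if_false]
      constructor
      · intro h; exact hτ.injective h
      · intro h; rw [h]
  have e2 : eps (!t) = - eps t := by cases t <;> simp [eps]
  rw [e2] at h
  rw [if_congr e1 rfl rfl, h]
  ring


/-- hypotheses on the involution, bundled -/
structure KempeData (m : V → Ω → ℝ) (K : Ω → Ω → ℝ) (τ : Ω → Ω) (s : Ω → ℝ) : Prop where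
  hm : ∀ v x, 0 ≤ m v x
  hK : ∀ x y, 0 ≤ K x y
  hτ : Function.Involutive τ
  hs1 : ∀ x, s x = 1 ∨ s x = 0 ∨ s x = -1
  hsτ : ∀ x, s (τ x) = - s x
  hs0 : ∀ x, s x = 0 → τ x = x
  hmτ : ∀ v x, m v (τ x) = m v x
  hKτ : ∀ x y, K (τ x) (τ y) = K x y
  hAF : ∀ x y, s x = s y → s x ≠ 0 → K x y ≤ K x (τ y)

section
variable {m : V → Ω → ℝ} {K : Ω → Ω → ℝ} {τ : Ω → Ω} {s : Ω → ℝ}

omit [Fintype V] [DecidableEq V] [Fintype Ω] [DecidableEq Ω] in
lemma KempeData.sq_or (D : KempeData m K τ s) (p q : Ω) :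
    (s p * s q) ^ 2 = 1 ∨ K p (τ q) = K p q := by
  rcases D.hs1 p with h | h | h
  · rcases D.hs1 q with h' | h' | h'
    · left; rw [h, h']; norm_num
    · right; rw [D.hs0 q h']
    · left; rw [h, h']; norm_num
  · right
    have := D.hKτ p q
    rw [D.hs0 p h] at this
    exact this
  · rcases D.hs1 q with h' | h' | h'
    · left; rw [h, h']; norm_num
    · right; rw [D.hs0 q h']
    · left; rw [h, h']; norm_num

omit [Fintype V] [DecidableEq V] [Fintype Ω] [DecidableEq Ω] in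
lemma KempeData.beta_nonneg (D : KempeData m K τ s) (p q : Ω) :
    0 ≤ (K p (τ q) - K p q) / 2 * (s p * s q) := by
  have hsame : ∀ p q, s p = s q → s p ≠ 0 → K p q ≤ K p (τ q) := D.hAF
  have hopp : s p = - s q → s p ≠ 0 → K p (τ q) ≤ K p q := by
    intro h1 h2
    have := D.hAF p (τ q) (by rw [D.hsτ, h1]) h2
    rwa [D.hτ q] at this
  rcases D.hs1 p with h | h | h
  · rcases D.hs1 q with h' | h' | h'
    · have := hsame p q (by rw [h, h']) (by rw [h]; norm_num)
      rw [h, h']; linarith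
    · rw [h']; simp
    · have := hopp (by rw [h, h']; norm_num) (by rw [h]; norm_num)
      rw [h, h']; linarith
  · rw [h]; simp
  · rcases D.hs1 q with h' | h' | h'
    · have := hopp (by rw [h, h']) (by rw [h]; norm_num)
      rw [h, h']; linarith
    · rw [h']; simp
    · have := hsame p q (by rw [h, h']) (by rw [h]; norm_num)
      rw [h, h']; linarith

omit [Fintype V] [DecidableEq V] [Fintype Ω] [DecidableEq Ω] in
lemma KempeData.edge_factor (D : KempeData m K τ s) (p q : Ω) (ta tb : Bool) :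
    K (if ta then τ p else p) (if tb then τ q else q)
      = (K p q + K p (τ q)) / 2 + (K p (τ q) - K p q) / 2 * (s p * s q) *
          ((s p * 1 * eps ta) * (s q * (-1) * eps tb)) := by
  have h1 : K (τ p) q = K p (τ q) := by
    have := D.hKτ p (τ q)
    rwa [D.hτ q] at this
  have key : (K p (τ q) - K p q) * (s p * s q) ^ 2 = K p (τ q) - K p q := by
    rcases D.sq_or p q with h | h
    · rw [h]; ring
    · rw [h]; ring
  cases ta <;> cases tb <;> simp only [eps_true, eps_false, if_true, if_false, Bool.false_eq_true,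
    D.hKτ, h1] <;> nlinarith [key]


omit [DecidableEq V] [Fintype Ω] [DecidableEq Ω] in
lemma KempeData.wt_flip (D : KempeData m K τ s) (c : V → Bool) (E : Finset (V × V))
    (hE : ∀ e ∈ E, c e.1 = false ∧ c e.2 = true) (φ : V → Ω) (T : V → Bool) :
    wt m K E (flipBy τ T φ) = (∏ v, m v (φ v)) *
      ∏ e ∈ E, ((K (φ e.1) (φ e.2) + K (φ e.1) (τ (φ e.2))) / 2
        + (K (φ e.1) (τ (φ e.2)) - K (φ e.1) (φ e.2)) / 2 * (s (φ e.1) * s (φ e.2)) *
          ((s (φ e.1) * (if c e.1 then -1 else 1) * eps (T e.1)) *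
           (s (φ e.2) * (if c e.2 then -1 else 1) * eps (T e.2)))) := by
  unfold wt
  congr 1
  · apply Finset.prod_congr rfl
    intro v _
    unfold flipBy
    by_cases h : T v
    · simp [h, D.hmτ]
    · simp [h]
  · apply Finset.prod_congr rfl
    intro e he
    obtain ⟨h1, h2⟩ := hE e he
    rw [h1, h2]
    simpa [flipBy] using D.edge_factor (φ e.1) (φ e.2) (T e.1) (T e.2)

lemma KempeData.per_config (D : KempeData m K τ s) (c : V → Bool) (E : Finset (V × V))
    (hE : ∀ e ∈ E, c e.1 = false ∧ c e.2 = true)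
    (u v : V) (hu : c u = false) (hv : c v = true) (x0 y0 : Ω) (hx0 : s x0 = 1) (hy0 : s y0 = 1)
    (φ : V → Ω) :
    0 ≤ ∑ T : V → Bool,
      ((if flipBy τ T φ u = x0 ∧ flipBy τ T φ v = τ y0 then wt m K E (flipBy τ T φ) else 0)
      - (if flipBy τ T φ u = x0 ∧ flipBy τ T φ v = y0 then wt m K E (flipBy τ T φ) else 0)) := by
  set z : V → ℝ := fun w => s (φ w) * (if c w then -1 else 1) with hz
  set α : V × V → ℝ := fun e => (K (φ e.1) (φ e.2) + K (φ e.1) (τ (φ e.2))) / 2 with hα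
  set β : V × V → ℝ := fun e =>
    (K (φ e.1) (τ (φ e.2)) - K (φ e.1) (φ e.2)) / 2 * (s (φ e.1) * s (φ e.2)) with hβ
  set M : ℝ := ∏ v, m v (φ v) with hM
  set χu : ℝ := if φ u = x0 ∨ φ u = τ x0 then 1 else 0 with hχu
  set χv : ℝ := if φ v = y0 ∨ φ v = τ y0 then 1 else 0 with hχv
  have hα0 : ∀ e, 0 ≤ α e := fun e => by
    have h1 := D.hK (φ e.1) (φ e.2)
    have h2 := D.hK (φ e.1) (τ (φ e.2))
    simp only [hα]; linarith
  have hβ0 : ∀ e, 0 ≤ β e := fun e => D.beta_nonneg _ _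
  have hM0 : 0 ≤ M := Finset.prod_nonneg (fun v _ => D.hm v _)
  have hχu0 : 0 ≤ χu := by simp only [hχu]; split_ifs <;> norm_num
  have hχv0 : 0 ≤ χv := by simp only [hχv]; split_ifs <;> norm_num
  have g1 := griffiths z α β hα0 hβ0 E (bump (fun _ => 0) v)
  have g2 := griffiths z α β hα0 hβ0 E (bump (bump (fun _ => 0) u) v)
  have term : ∀ T : V → Bool,
      ((if flipBy τ T φ u = x0 ∧ flipBy τ T φ v = τ y0 then wt m K E (flipBy τ T φ) else 0)
      - (if flipBy τ T φ u = x0 ∧ flipBy τ T φ v = y0 then wt m K E (flipBy τ T φ) else 0))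
      = (χu * χv * M / 2) *
        (((∏ w, (z w * eps (T w)) ^ (bump (fun _ => 0) v w)) *
            ∏ e ∈ E, (α e + β e * ((z e.1 * eps (T e.1)) * (z e.2 * eps (T e.2)))))
        + ((∏ w, (z w * eps (T w)) ^ (bump (bump (fun _ => 0) u) v w)) *
            ∏ e ∈ E, (α e + β e * ((z e.1 * eps (T e.1)) * (z e.2 * eps (T e.2)))))) := by
    intro T
    rw [← mono_mul (fun w => z w * eps (T w)) (bump (fun _ => 0) u) v,
      ← mono_mul (fun w => z w * eps (T w)) (fun _ => 0) u,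
      ← mono_mul (fun w => z w * eps (T w)) (fun _ => 0) v]
    have hw := D.wt_flip c E hE φ T
    have hA := ind_A τ D.hτ s D.hsτ x0 hx0 (φ u) (T u)
    have hB := ind_B τ D.hτ s D.hsτ y0 hy0 (φ v) (T v)
    have hC := ind_A τ D.hτ s D.hsτ y0 hy0 (φ v) (T v)
    have s1 : ∀ (P Q : Prop) [Decidable P] [Decidable Q] (w : ℝ),
        (if P ∧ Q then w else 0) = (if P then (1:ℝ) else 0) * (if Q then (1:ℝ) else 0) * w := by
      intro P Q _ _ w
      by_cases hP : P <;> by_cases hQ : Q <;> simp [hP, hQ]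
    rw [s1, s1]
    have fu : flipBy τ T φ u = if T u then τ (φ u) else φ u := rfl
    have fv : flipBy τ T φ v = if T v then τ (φ v) else φ v := rfl
    rw [fu, fv, hA, hB, hC, hw]
    simp only [pow_zero, Finset.prod_const_one, one_mul]
    have zu : z u = s (φ u) := by simp [hz, hu]
    have zv : z v = - s (φ v) := by simp [hz, hv]
    rw [zu, zv]
    ring
  simp_rw [term]
  rw [← Finset.mul_sum, Finset.sum_add_distrib]
  apply mul_nonneg
  · positivity
  · exact add_nonneg g1 g2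

theorem KempeData.kempe (D : KempeData m K τ s) (c : V → Bool) (E : Finset (V × V))
    (hE : ∀ e ∈ E, c e.1 = false ∧ c e.2 = true)
    (u v : V) (hu : c u = false) (hv : c v = true) (x0 y0 : Ω) (hx0 : s x0 = 1) (hy0 : s y0 = 1) :
    twoPt m K E u v x0 y0 ≤ twoPt m K E u v x0 (τ y0) := by
  set Ψ : (V → Ω) → ℝ := fun φ =>
    (if φ u = x0 ∧ φ v = τ y0 then wt m K E φ else 0)
      - (if φ u = x0 ∧ φ v = y0 then wt m K E φ else 0) with hΨ
  have hA : ∀ T : V → Bool, ∑ φ : V → Ω, Ψ (flipBy τ T φ) = ∑ φ : V → Ω, Ψ φ := by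
    intro T
    exact Equiv.sum_comp (Function.Involutive.toPerm _ (flipBy_invol τ D.hτ T)) Ψ
  have hB : (Fintype.card (V → Bool) : ℝ) * ∑ φ : V → Ω, Ψ φ
      = ∑ φ : V → Ω, ∑ T : V → Bool, Ψ (flipBy τ T φ) := by
    rw [Finset.sum_comm]
    simp_rw [hA]
    simp
  have hC : 0 ≤ ∑ φ : V → Ω, ∑ T : V → Bool, Ψ (flipBy τ T φ) :=
    Finset.sum_nonneg (fun φ _ => D.per_config c E hE u v hu hv x0 y0 hx0 hy0 φ)
  rw [← hB] at hC
  have hcard : (0:ℝ) < (Fintype.card (V → Bool) : ℝ) := by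
    exact_mod_cast Fintype.card_pos
  have hD : 0 ≤ ∑ φ : V → Ω, Ψ φ := by
    by_contra h
    push_neg at h
    have := mul_neg_of_pos_of_neg hcard h
    linarith
  simp only [hΨ, Finset.sum_sub_distrib] at hD
  unfold twoPt
  linarith

end

end Vale.Agent.P050
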