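import Mathlib
import Vale.Agent.P050.Kempe

open Finset

namespace Vale.Agent.P050

variable {α : Type*} [Fintype α] [DecidableEq α]

/-- action of a permutation of the ground set on subsets -/
def act (σ : Equiv.Perm α) (x : Finset α) : Finset α := x.map σ.toEmbedding

omit [Fintype α] [DecidableEq α] in
lemma mem_act (σ : Equiv.Perm α) (x : Finset α) (a : α) : a ∈ act σ x ↔ σ.symm a ∈ x := by
  unfold act
  exact Finset.mem_map_equiv

omit [Fintype α] [DecidableEq α] in
lemma card_act (σ : Equiv.Perm α) (x : Finset α) : (act σ x).card = x.card := by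
  unfold act
  exact Finset.card_map _

omit [Fintype α] in
lemma act_inter (σ : Equiv.Perm α) (x y : Finset α) : act σ x ∩ act σ y = act σ (x ∩ y) := by
  unfold act
  exact (Finset.map_inter x y).symm

omit [Fintype α] [DecidableEq α] in
lemma act_injective (σ : Equiv.Perm α) : Function.Injective (act σ) := by
  unfold act
  exact Finset.map_injective _

omit [Fintype α] in
lemma mem_act_swap (i j : α) (x : Finset α) (a : α) :
    a ∈ act (Equiv.swap i j) x ↔ Equiv.swap i j a ∈ x := by
  rw [mem_act, Equiv.symm_swap]

omit [Fintype α] in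
lemma act_swap_invol (i j : α) : Function.Involutive (act (Equiv.swap i j)) := by
  intro x
  ext a
  rw [mem_act_swap, mem_act_swap, Equiv.swap_apply_self]

lemma exists_perm (x y x' y' : Finset α) (h1 : x.card = x'.card) (h2 : y.card = y'.card)
    (h3 : (x ∩ y).card = (x' ∩ y').card) :
    ∃ σ : Equiv.Perm α, act σ x = x' ∧ act σ y = y' := by
  classical
  set f : α → Bool × Bool := fun a => (decide (a ∈ x), decide (a ∈ y)) with hf
  set g : α → Bool × Bool := fun a => (decide (a ∈ x'), decide (a ∈ y')) with hg
  have cardfib : ∀ (p q : Finset α) (c : Bool × Bool),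
      Fintype.card {a // ((decide (a ∈ p), decide (a ∈ q)) : Bool × Bool) = c}
        = if c.1 then (if c.2 then (p ∩ q).card else p.card - (p ∩ q).card)
          else (if c.2 then q.card - (p ∩ q).card
            else Fintype.card α - (p.card + q.card - (p ∩ q).card)) := by
    intro p q c
    rw [Fintype.card_subtype]
    obtain ⟨c1, c2⟩ := c
    cases c1 <;> cases c2
    · have : (univ.filter fun a => ((decide (a ∈ p), decide (a ∈ q)) : Bool × Bool) = (false, false))
          = (p ∪ q)ᶜ := by
        ext a; simp
      rw [this, Finset.card_compl]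
      have := Finset.card_union_add_card_inter p q
      simp only [Bool.false_eq_true, if_false]
      omega
    · have : (univ.filter fun a => ((decide (a ∈ p), decide (a ∈ q)) : Bool × Bool) = (false, true))
          = q \ p := by
        ext a; simp [and_comm]
      rw [this]
      have := Finset.card_sdiff_add_card_inter q p
      rw [Finset.inter_comm q p] at this
      simp only [Bool.false_eq_true, if_false, if_true]
      omega
    · have : (univ.filter fun a => ((decide (a ∈ p), decide (a ∈ q)) : Bool × Bool) = (true, false))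
          = p \ q := by
        ext a; simp
      rw [this]
      have := Finset.card_sdiff_add_card_inter p q
      simp only [Bool.false_eq_true, if_false, if_true]
      omega
    · have : (univ.filter fun a => ((decide (a ∈ p), decide (a ∈ q)) : Bool × Bool) = (true, true))
          = p ∩ q := by
        ext a; simp
      rw [this]
      simp
  have hc : ∀ c, Fintype.card {a // f a = c} = Fintype.card {a // g a = c} := by
    intro c
    simp only [hf, hg]
    rw [cardfib x y c, cardfib x' y' c, h1, h2, h3]
  set σ : Equiv.Perm α := Equiv.ofFiberEquiv (fun c => Fintype.equivOfCardEq (hc c)) with hσ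
  have hmap : ∀ a, g (σ a) = f a := fun a => Equiv.ofFiberEquiv_map _ a
  refine ⟨σ, ?_, ?_⟩
  · ext b
    rw [mem_act]
    have := hmap (σ.symm b)
    rw [Equiv.apply_symm_apply] at this
    simp only [hf, hg, Prod.mk.injEq, decide_eq_decide] at this
    exact this.1.symm
  · ext b
    rw [mem_act]
    have := hmap (σ.symm b)
    rw [Equiv.apply_symm_apply] at this
    simp only [hf, hg, Prod.mk.injEq, decide_eq_decide] at this
    exact this.2.symm

omit [Fintype α] in
lemma inter_act_swap (i j : α) (x y : Finset α) (hix : i ∈ x) (hiy : i ∈ y) (hjx : j ∉ x)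
    (hjy : j ∉ y) : x ∩ act (Equiv.swap i j) y = (x ∩ y).erase i := by
  ext a
  simp only [Finset.mem_inter, mem_act_swap, Finset.mem_erase]
  by_cases hai : a = i
  · subst hai
    simp [hjy]
  · by_cases haj : a = j
    · subst haj
      simp [hjx]
    · rw [Equiv.swap_apply_of_ne_of_ne hai haj]
      simp [hai]

/-- invariance under permutations of the ground set, and monotonicity under one exchange -/
structure SwapMono (Φ : Finset α → Finset α → ℝ) : Prop where
  inv : ∀ (σ : Equiv.Perm α) x y, Φ (act σ x) (act σ y) = Φ x y
  step : ∀ i j x y, i ∈ x → i ∈ y → j ∉ x → j ∉ y → Φ x y ≤ Φ x (act (Equiv.swap i j) y)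

lemma SwapMono.mono {Φ : Finset α → Finset α → ℝ} (h : SwapMono Φ) :
    ∀ (d : ℕ) (x y x' y' : Finset α), x.card = x'.card → y.card = y'.card →
      (x ∩ y).card = (x' ∩ y').card + d → Φ x y ≤ Φ x' y' := by
  intro d
  induction d with
  | zero =>
    intro x y x' y' h1 h2 h3
    obtain ⟨σ, hx, hy⟩ := exists_perm x y x' y' h1 h2 (by simpa using h3)
    rw [← hx, ← hy, h.inv]
  | succ d ih =>
    intro x y x' y' h1 h2 h3
    have hne : (x ∩ y).Nonempty := by
      rw [← Finset.card_pos]; omega
    obtain ⟨i, hi⟩ := hne
    rw [Finset.mem_inter] at hi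
    have hlt : (x ∪ y).card < Fintype.card α := by
      have e1 := Finset.card_union_add_card_inter x y
      have e2 := Finset.card_union_add_card_inter x' y'
      have e3 : (x' ∪ y').card ≤ Fintype.card α := Finset.card_le_univ _
      omega
    obtain ⟨j, hj⟩ : ∃ j, j ∉ x ∪ y := by
      by_contra hcon
      push Not at hcon
      have : x ∪ y = univ := Finset.eq_univ_iff_forall.mpr hcon
      rw [this, Finset.card_univ] at hlt
      exact lt_irrefl _ hlt
    rw [Finset.mem_union, not_or] at hj
    have s1 := h.step i j x y hi.1 hi.2 hj.1 hj.2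
    have c1 : (x ∩ act (Equiv.swap i j) y).card = (x' ∩ y').card + d := by
      rw [inter_act_swap i j x y hi.1 hi.2 hj.1 hj.2, Finset.card_erase_of_mem
        (Finset.mem_inter.mpr hi)]
      omega
    exact le_trans s1 (ih x _ x' y' h1 (by rw [card_act, h2]) c1)

lemma SwapMono.le_of_card_le {Φ : Finset α → Finset α → ℝ} (h : SwapMono Φ)
    (x y x' y' : Finset α) (h1 : x.card = x'.card) (h2 : y.card = y'.card)
    (h3 : (x' ∩ y').card ≤ (x ∩ y).card) : Φ x y ≤ Φ x' y' :=
  h.mono ((x ∩ y).card - (x' ∩ y').card) x y x' y' h1 h2 (by omega)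

end Vale.Agent.P050
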