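import Mathlib
import Vale.Agent.P050.Johnson

open Finset

set_option linter.unusedSectionVars false

namespace Vale.Agent.P050

variable {α : Type*} [Fintype α] [DecidableEq α]
variable {V : Type*} [Fintype V] [DecidableEq V]

/-- spin of a subset with respect to the pair `i, j` -/
def sgn (i j : α) (x : Finset α) : ℝ :=
  if i ∈ x ∧ j ∉ x then 1 else if j ∈ x ∧ i ∉ x then -1 else 0

lemma kempeData_swap (m : V → Finset α → ℝ) (K : Finset α → Finset α → ℝ)
    (hm : ∀ v x, 0 ≤ m v x) (hmc : ∀ v x y, x.card = y.card → m v x = m v y)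
    (hK : ∀ x y, 0 ≤ K x y)
    (hKinv : ∀ (σ : Equiv.Perm α) x y, K (act σ x) (act σ y) = K x y)
    (hKstep : ∀ i j x y, i ∈ x → i ∈ y → j ∉ x → j ∉ y → K x y ≤ K x (act (Equiv.swap i j) y))
    (i j : α) :
    KempeData m K (act (Equiv.swap i j)) (sgn i j) where
  hm := hm
  hK := hK
  hτ := act_swap_invol i j
  hs1 := by
    intro x
    unfold sgn
    split_ifs <;> simp
  hsτ := by
    intro x
    unfold sgn
    simp only [mem_act_swap, Equiv.swap_apply_left, Equiv.swap_apply_right]
    by_cases h1 : i ∈ x <;> by_cases h2 : j ∈ x <;> simp [h1, h2]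
  hs0 := by
    intro x hx
    have hiff : i ∈ x ↔ j ∈ x := by
      unfold sgn at hx
      by_cases h1 : i ∈ x <;> by_cases h2 : j ∈ x <;> simp [h1, h2] at hx ⊢
    ext a
    rw [mem_act_swap]
    by_cases hai : a = i
    · subst hai; simp [hiff]
    · by_cases haj : a = j
      · subst haj; simp [hiff]
      · rw [Equiv.swap_apply_of_ne_of_ne hai haj]
  hmτ := by
    intro v x
    exact hmc v _ _ (card_act _ _)
  hKτ := hKinv _
  hAF := by
    intro x y hxy hx
    unfold sgn at hxy hx
    by_cases h1 : i ∈ x <;> by_cases h2 : j ∈ x <;> by_cases h3 : i ∈ y <;> by_cases h4 : j ∈ y <;>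
      simp [h1, h2, h3, h4] at hxy hx
    · exact hKstep i j x y h1 h3 h2 h4
    · norm_num at hxy
    · norm_num at hxy
    · rw [Equiv.swap_comm]
      exact hKstep j i x y h2 h4 h1 h3


/-- standing hypotheses on vertex weights and kernel -/
structure SliceData (m : V → Finset α → ℝ) (K : Finset α → Finset α → ℝ) : Prop where
  hm : ∀ v x, 0 ≤ m v x
  hmc : ∀ v x y, x.card = y.card → m v x = m v y
  hK : ∀ x y, 0 ≤ K x y
  hKmono : SwapMono K

section
variable {m : V → Finset α → ℝ} {K : Finset α → Finset α → ℝ}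

lemma SliceData.wt_act (D : SliceData m K) (E : Finset (V × V)) (σ : Equiv.Perm α)
    (φ : V → Finset α) : wt m K E (fun w => act σ (φ w)) = wt m K E φ := by
  unfold wt
  congr 1
  · apply Finset.prod_congr rfl
    intro v _
    exact D.hmc v _ _ (card_act _ _)
  · apply Finset.prod_congr rfl
    intro e _
    exact D.hKmono.inv σ _ _

lemma SliceData.twoPt_swapMono (D : SliceData m K) (c : V → Bool) (E : Finset (V × V))
    (hE : ∀ e ∈ E, c e.1 = false ∧ c e.2 = true) (u v : V) (hu : c u = false) (hv : c v = true) :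
    SwapMono (twoPt m K E u v) where
  inv := by
    intro σ x y
    unfold twoPt
    have := Equiv.sum_comp (Equiv.piCongrRight (fun _ : V => σ.finsetCongr))
      (fun φ : V → Finset α => if φ u = act σ x ∧ φ v = act σ y then wt m K E φ else 0)
    rw [← this]
    apply Finset.sum_congr rfl
    intro φ _
    have e1 : ∀ w, (Equiv.piCongrRight (fun _ : V => σ.finsetCongr)) φ w = act σ (φ w) := by
      intro w; rfl
    have e2 : (Equiv.piCongrRight (fun _ : V => σ.finsetCongr)) φ = fun w => act σ (φ w) := by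
      funext w; rfl
    rw [e1, e1, e2, D.wt_act]
    have i1 : act σ (φ u) = act σ x ↔ φ u = x := (act_injective σ).eq_iff
    have i2 : act σ (φ v) = act σ y ↔ φ v = y := (act_injective σ).eq_iff
    simp only [i1, i2]
  step := by
    intro i j x y hix hiy hjx hjy
    have KD := kempeData_swap m K D.hm D.hmc D.hK D.hKmono.inv D.hKmono.step i j
    exact KD.kempe c E hE u v hu hv x y (by simp [sgn, hix, hjx]) (by simp [sgn, hiy, hjy])

/-- partition function -/
def Zf (m : V → Finset α → ℝ) (K : Finset α → Finset α → ℝ) (E : Finset (V × V)) : ℝ :=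
  ∑ φ : V → Finset α, wt m K E φ

lemma SliceData.wt_nonneg (D : SliceData m K) (E : Finset (V × V)) (φ : V → Finset α) :
    0 ≤ wt m K E φ :=
  mul_nonneg (Finset.prod_nonneg fun v _ => D.hm v _) (Finset.prod_nonneg fun e _ => D.hK _ _)

lemma SliceData.Zf_nonneg (D : SliceData m K) (E : Finset (V × V)) : 0 ≤ Zf m K E :=
  Finset.sum_nonneg fun φ _ => D.wt_nonneg E φ

lemma Zf_eq_sum_twoPt (E : Finset (V × V)) (u v : V) :
    Zf m K E = ∑ p : Finset α × Finset α, twoPt m K E u v p.1 p.2 := by
  unfold Zf twoPt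
  rw [Finset.sum_comm]
  apply Finset.sum_congr rfl
  intro φ _
  rw [Finset.sum_eq_single (φ u, φ v)]
  · simp
  · intro p _ hp
    rw [if_neg]
    rintro ⟨h1, h2⟩
    apply hp
    ext1 <;> simp [h1, h2]
  · intro h; exact absurd (Finset.mem_univ _) h

lemma Zf_insert (E : Finset (V × V)) (u v : V) (he : (u, v) ∉ E) :
    Zf m K (insert (u, v) E) = ∑ p : Finset α × Finset α, twoPt m K E u v p.1 p.2 * K p.1 p.2 := by
  unfold Zf twoPt
  simp_rw [Finset.sum_mul]
  rw [Finset.sum_comm]
  apply Finset.sum_congr rfl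
  intro φ _
  rw [Finset.sum_eq_single (φ u, φ v)]
  · simp only [and_self, if_true]
    unfold wt
    rw [Finset.prod_insert he]
    ring
  · intro p _ hp
    rw [if_neg, zero_mul]
    rintro ⟨h1, h2⟩
    apply hp
    ext1 <;> simp [h1, h2]
  · intro h; exact absurd (Finset.mem_univ _) h

lemma twoPt_eq_zero_left (E : Finset (V × V)) (u v : V) (x y : Finset α) (h : m u x = 0) :
    twoPt m K E u v x y = 0 := by
  unfold twoPt
  apply Finset.sum_eq_zero
  intro φ _
  split_ifs with hφ
  · unfold wt
    rw [Finset.prod_eq_zero (Finset.mem_univ u) (by rw [hφ.1, h]), zero_mul]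
  · rfl

lemma twoPt_eq_zero_right (E : Finset (V × V)) (u v : V) (x y : Finset α) (h : m v y = 0) :
    twoPt m K E u v x y = 0 := by
  unfold twoPt
  apply Finset.sum_eq_zero
  intro φ _
  split_ifs with hφ
  · unfold wt
    rw [Finset.prod_eq_zero (Finset.mem_univ v) (by rw [hφ.2, h]), zero_mul]
  · rfl

/-- the pairs of subsets of the two prescribed sizes -/
def slicePairs (α : Type*) [Fintype α] [DecidableEq α] (rA rB : ℕ) :
    Finset (Finset α × Finset α) :=
  (Finset.powersetCard rA univ) ×ˢ (Finset.powersetCard rB univ)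

/-- mean value of the kernel over the two slices -/
noncomputable def kmean (K : Finset α → Finset α → ℝ) (rA rB : ℕ) : ℝ :=
  (∑ p ∈ slicePairs α rA rB, K p.1 p.2) / ((slicePairs α rA rB).card : ℝ)

lemma SliceData.step_ineq (D : SliceData m K) (c : V → Bool) (E : Finset (V × V))
    (hE : ∀ e ∈ E, c e.1 = false ∧ c e.2 = true) (u v : V) (hu : c u = false) (hv : c v = true)
    (he : (u, v) ∉ E) (rA rB : ℕ) (hA : ∀ x : Finset α, x.card ≠ rA → m u x = 0)
    (hB : ∀ y : Finset α, y.card ≠ rB → m v y = 0) :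
    kmean K rA rB * Zf m K E ≤ Zf m K (insert (u, v) E) := by
  set S := slicePairs α rA rB with hS
  have hF := D.twoPt_swapMono c E hE u v hu hv
  have hzero : ∀ p : Finset α × Finset α, p ∉ S → twoPt m K E u v p.1 p.2 = 0 := by
    intro p hp
    simp only [hS, slicePairs, Finset.mem_product, Finset.mem_powersetCard, Finset.subset_univ,
      true_and, not_and_or] at hp
    rcases hp with hp | hp
    · exact twoPt_eq_zero_left E u v _ _ (hA _ hp)
    · exact twoPt_eq_zero_right E u v _ _ (hB _ hp)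
  have e1 : Zf m K E = ∑ p ∈ S, twoPt m K E u v p.1 p.2 := by
    rw [Zf_eq_sum_twoPt E u v]
    symm
    apply Finset.sum_subset (Finset.subset_univ S)
    intro p _ hp
    exact hzero p hp
  have e2 : Zf m K (insert (u, v) E) = ∑ p ∈ S, twoPt m K E u v p.1 p.2 * K p.1 p.2 := by
    rw [Zf_insert E u v he]
    symm
    apply Finset.sum_subset (Finset.subset_univ S)
    intro p _ hp
    rw [hzero p hp, zero_mul]
  have hmono : MonovaryOn (fun p : Finset α × Finset α => twoPt m K E u v p.1 p.2)
      (fun p => K p.1 p.2) (S : Set (Finset α × Finset α)) := by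
    intro p hp q hq hlt
    simp only [hS, slicePairs, Finset.coe_product, Set.mem_prod, Finset.mem_coe,
      Finset.mem_powersetCard, Finset.subset_univ, true_and] at hp hq
    simp only at hlt ⊢
    by_cases hle : (p.1 ∩ p.2).card ≤ (q.1 ∩ q.2).card
    · have := D.hKmono.le_of_card_le q.1 q.2 p.1 p.2 (by rw [hq.1, hp.1]) (by rw [hq.2, hp.2]) hle
      linarith
    · exact hF.le_of_card_le p.1 p.2 q.1 q.2 (by rw [hq.1, hp.1]) (by rw [hq.2, hp.2]) (by omega)
  have cheb := hmono.sum_mul_sum_le_card_mul_sum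
  rw [← e1, ← e2] at cheb
  unfold kmean
  rw [← hS]
  by_cases hc : (S.card : ℝ) = 0
  · rw [hc, div_zero, zero_mul]
    exact SliceData.Zf_nonneg D _
  · have hpos : (0:ℝ) < S.card := lt_of_le_of_ne (Nat.cast_nonneg _) (Ne.symm hc)
    rw [div_mul_eq_mul_div, div_le_iff₀ hpos]
    linarith

lemma SliceData.kmean_nonneg (D : SliceData m K) (rA rB : ℕ) : 0 ≤ kmean K rA rB := by
  unfold kmean
  exact div_nonneg (Finset.sum_nonneg fun p _ => D.hK _ _) (Nat.cast_nonneg _)

theorem SliceData.main (D : SliceData m K) (c : V → Bool) (rA rB : ℕ) (E : Finset (V × V)) :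
    (∀ e ∈ E, c e.1 = false ∧ c e.2 = true) →
    (∀ e ∈ E, (∀ x : Finset α, x.card ≠ rA → m e.1 x = 0) ∧
      (∀ y : Finset α, y.card ≠ rB → m e.2 y = 0)) →
    kmean K rA rB ^ E.card * Zf m K ∅ ≤ Zf m K E := by
  induction E using Finset.induction_on with
  | empty => intro _ _; simp
  | insert e E he ih =>
    intro hE hS
    have hE' : ∀ e ∈ E, c e.1 = false ∧ c e.2 = true :=
      fun e' h' => hE e' (Finset.mem_insert_of_mem h')
    have ih' := ih hE' (fun e' h' => hS e' (Finset.mem_insert_of_mem h'))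
    obtain ⟨hu, hv⟩ := hE e (Finset.mem_insert_self _ _)
    obtain ⟨hA, hB⟩ := hS e (Finset.mem_insert_self _ _)
    have st := D.step_ineq c E hE' e.1 e.2 hu hv he rA rB hA hB
    rw [Finset.card_insert_of_notMem he, pow_succ]
    have k0 := D.kmean_nonneg (m := m) rA rB
    calc kmean K rA rB ^ E.card * kmean K rA rB * Zf m K ∅
        = kmean K rA rB * (kmean K rA rB ^ E.card * Zf m K ∅) := by ring
      _ ≤ kmean K rA rB * Zf m K E := mul_le_mul_of_nonneg_left ih' k0
      _ ≤ Zf m K (insert e E) := st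

end

end Vale.Agent.P050
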