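import Mathlib
import Vale.Agent.P050.Slice

open Finset

set_option linter.unusedSectionVars false

namespace Vale.Agent.P050

variable {V : Type*} [Fintype V] [DecidableEq V]

/-- boolean sequences versus subsets -/
def bf (k : ℕ) : (Fin k → Bool) ≃ Finset (Fin k) where
  toFun p := univ.filter (fun i => p i = true)
  invFun x := fun i => decide (i ∈ x)
  left_inv := by
    intro p; funext i; simp
  right_inv := by
    intro x; ext i; simp

lemma decide_mem_bf (k : ℕ) (p : Fin k → Bool) (i : Fin k) : decide (i ∈ bf k p) = p i := by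
  simp [bf]

/-- product weight of a subset -/
def muk (k : ℕ) (g : Bool → ℝ) (x : Finset (Fin k)) : ℝ := ∏ i, g (decide (i ∈ x))

/-- product kernel -/
def Kk (k : ℕ) (M : Bool → Bool → ℝ) (x y : Finset (Fin k)) : ℝ :=
  ∏ i, M (decide (i ∈ x)) (decide (i ∈ y))

/-- reindexing of k-tuples of boolean configurations -/
def theta (V : Type*) (k : ℕ) : (Fin k → V → Bool) ≃ (V → Finset (Fin k)) :=
  (Equiv.piComm (fun (_ : Fin k) (_ : V) => Bool)).trans (Equiv.piCongrRight (fun _ => bf k))

lemma theta_apply (k : ℕ) (p : Fin k → V → Bool) (v : V) :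
    theta V k p v = bf k (fun i => p i v) := rfl

lemma tensor_identity (μ : V → Bool → ℝ) (M : Bool → Bool → ℝ) (E : Finset (V × V)) (k : ℕ) :
    (∑ σ : V → Bool, wt μ M E σ) ^ k
      = ∑ φ : V → Finset (Fin k), wt (fun v => muk k (μ v)) (Kk k M) E φ := by
  rw [Fintype.sum_pow, ← Equiv.sum_comp (theta V k)]
  apply Finset.sum_congr rfl
  intro p _
  unfold wt
  rw [Finset.prod_mul_distrib, Finset.prod_comm, Finset.prod_comm (s := univ) (t := E)]
  congr 1
  · apply Finset.prod_congr rfl
    intro v _
    unfold muk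
    apply Finset.prod_congr rfl
    intro i _
    rw [theta_apply, decide_mem_bf]
  · apply Finset.prod_congr rfl
    intro e _
    unfold Kk
    apply Finset.prod_congr rfl
    intro i _
    rw [theta_apply, theta_apply, decide_mem_bf, decide_mem_bf]

lemma muk_eq (k : ℕ) (g : Bool → ℝ) (x : Finset (Fin k)) :
    muk k g x = g true ^ x.card * g false ^ (k - x.card) := by
  unfold muk
  rw [← Finset.prod_mul_prod_compl x]
  congr 1
  · rw [← Finset.prod_const]
    apply Finset.prod_congr rfl
    intro i hi
    simp [hi]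
  · have : k - x.card = xᶜ.card := by rw [Finset.card_compl, Fintype.card_fin]
    rw [this, ← Finset.prod_const]
    apply Finset.prod_congr rfl
    intro i hi
    rw [Finset.mem_compl] at hi
    simp [hi]

lemma Kk_nonneg (k : ℕ) (M : Bool → Bool → ℝ) (hM : ∀ a b, 0 ≤ M a b) (x y : Finset (Fin k)) :
    0 ≤ Kk k M x y := Finset.prod_nonneg fun _ _ => hM _ _

lemma Kk_swapMono (k : ℕ) (M : Bool → Bool → ℝ) (hM : ∀ a b, 0 ≤ M a b)
    (hdet : M true true * M false false ≤ M true false * M false true) :
    SwapMono (Kk k M) where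
  inv := by
    intro σ x y
    unfold Kk
    rw [← Equiv.prod_comp σ]
    apply Finset.prod_congr rfl
    intro i _
    simp [mem_act]
  step := by
    intro i j x y hix hiy hjx hjy
    have hij : i ≠ j := by
      intro h; subst h; exact hjx hix
    unfold Kk
    have hj : j ∈ (univ : Finset (Fin k)).erase i := by simp [hij.symm]
    rw [← Finset.mul_prod_erase univ _ (Finset.mem_univ i), ← Finset.mul_prod_erase _ _ hj,
      ← Finset.mul_prod_erase univ _ (Finset.mem_univ i), ← Finset.mul_prod_erase _ _ hj]
    have hrest : ∏ l ∈ (univ.erase i).erase j,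
          M (decide (l ∈ x)) (decide (l ∈ act (Equiv.swap i j) y))
        = ∏ l ∈ (univ.erase i).erase j, M (decide (l ∈ x)) (decide (l ∈ y)) := by
      apply Finset.prod_congr rfl
      intro l hl
      simp only [Finset.mem_erase, Finset.mem_univ, and_true] at hl
      simp only [mem_act_swap, Equiv.swap_apply_of_ne_of_ne hl.2 hl.1]
    rw [hrest]
    have hR : 0 ≤ ∏ l ∈ (univ.erase i).erase j, M (decide (l ∈ x)) (decide (l ∈ y)) :=
      Finset.prod_nonneg fun _ _ => hM _ _
    simp only [mem_act_swap, Equiv.swap_apply_left, Equiv.swap_apply_right, hix, hiy, hjx, hjy,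
      decide_true, decide_false]
    rw [← mul_assoc, ← mul_assoc]
    exact mul_le_mul_of_nonneg_right hdet hR

end Vale.Agent.P050
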