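import Mathlib
import Vale.Agent.P050.Tensor

open Finset

set_option linter.unusedSectionVars false

namespace Vale.Agent.P050

variable {V : Type*} [Fintype V] [DecidableEq V]

/-- edge mass of the two state model -/
def pmass (μA μB : Bool → ℝ) (M : Bool → Bool → ℝ) : ℝ :=
  ∑ q : Bool × Bool, μA q.1 * μB q.2 * M q.1 q.2

/-- tensor power of the edge weight -/
def Gk (k : ℕ) (μA μB : Bool → ℝ) (M : Bool → Bool → ℝ) (q : Finset (Fin k) × Finset (Fin k)) : ℝ :=
  muk k μA q.1 * muk k μB q.2 * Kk k M q.1 q.2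

lemma pmass_pow (k : ℕ) (μA μB : Bool → ℝ) (M : Bool → Bool → ℝ) :
    pmass μA μB M ^ k = ∑ q : Finset (Fin k) × Finset (Fin k), Gk k μA μB M q := by
  unfold pmass
  rw [Fintype.sum_pow]
  rw [← Equiv.sum_comp ((Equiv.arrowProdEquivProdArrow (Fin k) (fun _ => Bool) (fun _ => Bool)).trans
    (Equiv.prodCongr (bf k) (bf k)))]
  apply Finset.sum_congr rfl
  intro r _
  unfold Gk muk Kk
  rw [← Finset.prod_mul_distrib, ← Finset.prod_mul_distrib]
  apply Finset.prod_congr rfl
  intro i _
  simp [Equiv.arrowProdEquivProdArrow, decide_mem_bf]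

lemma sum_muk (k : ℕ) (g : Bool → ℝ) : ∑ x : Finset (Fin k), muk k g x = (g true + g false) ^ k := by
  have : g true + g false = ∑ b : Bool, g b := by simp
  rw [this, Fintype.sum_pow, ← Equiv.sum_comp (bf k)]
  apply Finset.sum_congr rfl
  intro p _
  unfold muk
  apply Finset.prod_congr rfl
  intro i _
  rw [decide_mem_bf]

lemma filter_card_eq_slicePairs (k : ℕ) (r : ℕ × ℕ) :
    (univ.filter fun q : Finset (Fin k) × Finset (Fin k) => (q.1.card, q.2.card) = r)
      = slicePairs (Fin k) r.1 r.2 := by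
  ext q
  simp [slicePairs, Finset.mem_powersetCard, Prod.ext_iff]

lemma pigeon (k : ℕ) (μA μB : Bool → ℝ) (M : Bool → Bool → ℝ) :
    ∃ rA rB : ℕ, pmass μA μB M ^ k ≤ ((k:ℝ) + 1) ^ 2 *
      ∑ q ∈ slicePairs (Fin k) rA rB, Gk k μA μB M q := by
  set T : Finset (ℕ × ℕ) := Finset.range (k + 1) ×ˢ Finset.range (k + 1) with hT
  have hTne : T.Nonempty := ⟨(0, 0), by simp [hT]⟩
  have hcard : (T.card : ℝ) = ((k:ℝ) + 1) ^ 2 := by
    simp [hT, Finset.card_product]; ring
  have hsum : ∑ r ∈ T, ∑ q ∈ slicePairs (Fin k) r.1 r.2, Gk k μA μB M q = pmass μA μB M ^ k := by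
    rw [pmass_pow]
    rw [← Finset.sum_fiberwise_of_maps_to (s := univ) (t := T)
      (g := fun q : Finset (Fin k) × Finset (Fin k) => (q.1.card, q.2.card))]
    · apply Finset.sum_congr rfl
      intro r _
      rw [filter_card_eq_slicePairs]
    · intro q _
      have h1 := Finset.card_le_univ q.1
      have h2 := Finset.card_le_univ q.2
      simp only [Fintype.card_fin] at h1 h2
      simp only [hT, Finset.mem_product, Finset.mem_range]
      omega
  have hpos : (0:ℝ) < ((k:ℝ) + 1) ^ 2 := by positivity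
  obtain ⟨r, _, hr⟩ := Finset.exists_le_of_sum_le hTne
    (f := fun _ => pmass μA μB M ^ k / ((k:ℝ) + 1) ^ 2)
    (g := fun r => ∑ q ∈ slicePairs (Fin k) r.1 r.2, Gk k μA μB M q) (by
      rw [hsum, Finset.sum_const, nsmul_eq_mul, hcard]
      rw [mul_div_cancel₀ _ (ne_of_gt hpos)])
  refine ⟨r.1, r.2, ?_⟩
  rw [div_le_iff₀ hpos] at hr
  linarith


/-- vertex measure: `μA` on the side `c v = false`, `μB` on the side `c v = true` -/
def muV (c : V → Bool) (μA μB : Bool → ℝ) (v : V) : Bool → ℝ := if c v then μB else μA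

/-- the vertex is covered by an edge -/
def inE (E : Finset (V × V)) (v : V) : Prop := ∃ e ∈ E, e.1 = v ∨ e.2 = v

/-- prescribed size on the side of `v` -/
def rOf (c : V → Bool) (rA rB : ℕ) (v : V) : ℕ := if c v then rB else rA

open Classical in
/-- restricted vertex weights -/
noncomputable def mres (k : ℕ) (c : V → Bool) (E : Finset (V × V)) (μA μB : Bool → ℝ)
    (rA rB : ℕ) (v : V) (x : Finset (Fin k)) : ℝ :=
  if inE E v ∧ x.card ≠ rOf c rA rB v then 0 else muk k (muV c μA μB v) x

/-- mass of a slice -/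
def sliceMass (k : ℕ) (g : Bool → ℝ) (r : ℕ) : ℝ := ∑ x ∈ Finset.powersetCard r univ, muk k g x

lemma muk_nonneg (k : ℕ) (g : Bool → ℝ) (hg : ∀ b, 0 ≤ g b) (x : Finset (Fin k)) : 0 ≤ muk k g x :=
  Finset.prod_nonneg fun _ _ => hg _

lemma sliceMass_nonneg (k : ℕ) (g : Bool → ℝ) (hg : ∀ b, 0 ≤ g b) (r : ℕ) : 0 ≤ sliceMass k g r :=
  Finset.sum_nonneg fun _ _ => muk_nonneg k g hg _

lemma sliceMass_le_one (k : ℕ) (g : Bool → ℝ) (hg : ∀ b, 0 ≤ g b) (h1 : g true + g false = 1)
    (r : ℕ) : sliceMass k g r ≤ 1 := by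
  have := sum_muk k g
  rw [h1, one_pow] at this
  rw [← this]
  unfold sliceMass
  exact Finset.sum_le_sum_of_subset_of_nonneg (Finset.subset_univ _)
    (fun x _ _ => muk_nonneg k g hg x)

lemma sliceMass_eq (k : ℕ) (g : Bool → ℝ) (r : ℕ) :
    sliceMass k g r = ((Finset.powersetCard r (univ : Finset (Fin k))).card : ℝ) *
      (g true ^ r * g false ^ (k - r)) := by
  unfold sliceMass
  rw [← nsmul_eq_mul, ← Finset.sum_const]
  apply Finset.sum_congr rfl
  intro x hx
  rw [Finset.mem_powersetCard] at hx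
  rw [muk_eq, hx.2]

lemma sum_Gk_slice (k : ℕ) (μA μB : Bool → ℝ) (M : Bool → Bool → ℝ) (rA rB : ℕ) :
    ∑ q ∈ slicePairs (Fin k) rA rB, Gk k μA μB M q
      = kmean (Kk k M) rA rB * sliceMass k μA rA * sliceMass k μB rB := by
  have h1 : ∑ q ∈ slicePairs (Fin k) rA rB, Gk k μA μB M q
      = (μA true ^ rA * μA false ^ (k - rA)) * (μB true ^ rB * μB false ^ (k - rB)) *
        ∑ q ∈ slicePairs (Fin k) rA rB, Kk k M q.1 q.2 := by
    rw [Finset.mul_sum]
    apply Finset.sum_congr rfl
    intro q hq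
    simp only [slicePairs, Finset.mem_product, Finset.mem_powersetCard] at hq
    unfold Gk
    rw [muk_eq, muk_eq, hq.1.2, hq.2.2]
  rw [h1, sliceMass_eq, sliceMass_eq]
  unfold kmean
  have hc : ((slicePairs (Fin k) rA rB).card : ℝ)
      = ((Finset.powersetCard rA (univ : Finset (Fin k))).card : ℝ) *
        ((Finset.powersetCard rB (univ : Finset (Fin k))).card : ℝ) := by
    simp [slicePairs, Finset.card_product]
  by_cases h0 : ((slicePairs (Fin k) rA rB).card : ℝ) = 0
  · have : slicePairs (Fin k) rA rB = ∅ := by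
      have : (slicePairs (Fin k) rA rB).card = 0 := by exact_mod_cast h0
      exact Finset.card_eq_zero.mp this
    rw [this]; simp
  · rw [hc] at h0 ⊢
    have hP : ((Finset.powersetCard rA (univ : Finset (Fin k))).card : ℝ) ≠ 0 :=
      left_ne_zero_of_mul h0
    have hQ : ((Finset.powersetCard rB (univ : Finset (Fin k))).card : ℝ) ≠ 0 :=
      right_ne_zero_of_mul h0
    field_simp

lemma sliceData_mres (k : ℕ) (c : V → Bool) (E : Finset (V × V)) (μA μB : Bool → ℝ)
    (M : Bool → Bool → ℝ) (hA : ∀ b, 0 ≤ μA b) (hB : ∀ b, 0 ≤ μB b) (hM : ∀ a b, 0 ≤ M a b)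
    (hdet : M true true * M false false ≤ M true false * M false true) (rA rB : ℕ) :
    SliceData (mres k c E μA μB rA rB) (Kk k M) where
  hm := by
    intro v x
    unfold mres
    split_ifs
    · exact le_refl _
    · apply muk_nonneg
      intro b
      unfold muV
      split_ifs
      · exact hB b
      · exact hA b
  hmc := by
    intro v x y hxy
    unfold mres
    rw [muk_eq, muk_eq, hxy]
  hK := Kk_nonneg k M hM
  hKmono := Kk_swapMono k M hM hdet

open Classical in
lemma sum_mres (k : ℕ) (c : V → Bool) (E : Finset (V × V)) (μA μB : Bool → ℝ)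
    (h1A : μA true + μA false = 1) (h1B : μB true + μB false = 1) (rA rB : ℕ) (v : V) :
    ∑ x : Finset (Fin k), mres k c E μA μB rA rB v x
      = (if inE E v ∧ c v = false then sliceMass k μA rA else 1) *
        (if inE E v ∧ c v = true then sliceMass k μB rB else 1) := by
  have hs : ∀ (g : Bool → ℝ) (r : ℕ), ∑ x : Finset (Fin k), (if x.card ≠ r then 0 else muk k g x)
      = sliceMass k g r := by
    intro g r
    unfold sliceMass
    have : ∀ x : Finset (Fin k), (if x.card ≠ r then 0 else muk k g x)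
        = if x.card = r then muk k g x else 0 := by
      intro x; by_cases h : x.card = r <;> simp [h]
    simp_rw [this]
    rw [← Finset.sum_filter]
    apply Finset.sum_congr _ (fun _ _ => rfl)
    ext x
    simp [Finset.mem_powersetCard]
  unfold mres
  by_cases hv : inE E v
  · cases hc : c v
    · simp only [hv, true_and, muV, rOf, hc, Bool.false_eq_true, if_false, if_true, mul_one]
      exact hs μA rA
    · simp only [hv, true_and, muV, rOf, hc, if_true, Bool.true_eq_false, if_false, one_mul]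
      exact hs μB rB
  · simp only [hv, false_and, if_false, mul_one]
    rw [sum_muk]
    unfold muV
    split_ifs
    · rw [h1B, one_pow]
    · rw [h1A, one_pow]

lemma Zf_empty {k : ℕ} (m : V → Finset (Fin k) → ℝ) (K : Finset (Fin k) → Finset (Fin k) → ℝ) :
    Zf m K ∅ = ∏ v, ∑ x, m v x := by
  unfold Zf wt
  simp only [Finset.prod_empty, mul_one]
  rw [Finset.prod_univ_sum, Fintype.piFinset_univ]


lemma prod_ite_one_eq_pow (P : V → Prop) [DecidablePred P] (a : ℝ) :
    ∏ v, (if P v then a else 1) = a ^ (univ.filter P).card := by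
  rw [Finset.prod_ite, Finset.prod_const, Finset.prod_const_one, mul_one]

open Classical in
lemma Zf_empty_lower (k : ℕ) (c : V → Bool) (E : Finset (V × V)) (μA μB : Bool → ℝ)
    (K : Finset (Fin k) → Finset (Fin k) → ℝ)
    (hE : ∀ e ∈ E, c e.1 = false ∧ c e.2 = true)
    (hA : ∀ b, 0 ≤ μA b) (hB : ∀ b, 0 ≤ μB b)
    (h1A : μA true + μA false = 1) (h1B : μB true + μB false = 1) (rA rB : ℕ) :
    sliceMass k μA rA ^ E.card * sliceMass k μB rB ^ E.card
      ≤ Zf (mres k c E μA μB rA rB) K ∅ := by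
  rw [Zf_empty]
  simp_rw [sum_mres k c E μA μB h1A h1B rA rB]
  rw [Finset.prod_mul_distrib, prod_ite_one_eq_pow (fun v => inE E v ∧ c v = false),
    prod_ite_one_eq_pow (fun v => inE E v ∧ c v = true)]
  have cA : (univ.filter fun v => inE E v ∧ c v = false).card ≤ E.card := by
    calc (univ.filter fun v => inE E v ∧ c v = false).card ≤ (E.image Prod.fst).card := by
          apply Finset.card_le_card
          intro v hv
          simp only [Finset.mem_filter, Finset.mem_univ, true_and] at hv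
          obtain ⟨⟨e, he, h⟩, hc⟩ := hv
          rcases h with h | h
          · exact Finset.mem_image.mpr ⟨e, he, h⟩
          · have := (hE e he).2
            rw [h, hc] at this
            exact absurd this (by simp)
      _ ≤ E.card := Finset.card_image_le
  have cB : (univ.filter fun v => inE E v ∧ c v = true).card ≤ E.card := by
    calc (univ.filter fun v => inE E v ∧ c v = true).card ≤ (E.image Prod.snd).card := by
          apply Finset.card_le_card
          intro v hv
          simp only [Finset.mem_filter, Finset.mem_univ, true_and] at hv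
          obtain ⟨⟨e, he, h⟩, hc⟩ := hv
          rcases h with h | h
          · have := (hE e he).1
            rw [h, hc] at this
            exact absurd this (by simp)
          · exact Finset.mem_image.mpr ⟨e, he, h⟩
      _ ≤ E.card := Finset.card_image_le
  have a0 := sliceMass_nonneg k μA hA rA
  have b0 := sliceMass_nonneg k μB hB rB
  have a1 := sliceMass_le_one k μA hA h1A rA
  have b1 := sliceMass_le_one k μB hB h1B rB
  exact mul_le_mul (pow_le_pow_of_le_one a0 a1 cA) (pow_le_pow_of_le_one b0 b1 cB)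
    (pow_nonneg b0 _) (pow_nonneg a0 _)

lemma Zf_mres_le (k : ℕ) (c : V → Bool) (E : Finset (V × V)) (μA μB : Bool → ℝ)
    (M : Bool → Bool → ℝ) (hA : ∀ b, 0 ≤ μA b) (hB : ∀ b, 0 ≤ μB b) (hM : ∀ a b, 0 ≤ M a b)
    (rA rB : ℕ) :
    Zf (mres k c E μA μB rA rB) (Kk k M) E
      ≤ ∑ φ : V → Finset (Fin k), wt (fun v => muk k (muV c μA μB v)) (Kk k M) E φ := by
  unfold Zf
  apply Finset.sum_le_sum
  intro φ _
  unfold wt
  apply mul_le_mul_of_nonneg_right _ (Finset.prod_nonneg fun _ _ => Kk_nonneg k M hM _ _)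
  have hmu : ∀ v (x : Finset (Fin k)), 0 ≤ muk k (muV c μA μB v) x := by
    intro v x
    apply muk_nonneg
    intro b
    unfold muV
    split_ifs
    · exact hB b
    · exact hA b
  apply Finset.prod_le_prod
  · intro v _
    unfold mres
    split_ifs
    · exact le_refl _
    · exact hmu v _
  · intro v _
    unfold mres
    split_ifs
    · exact hmu v _
    · exact le_refl _

lemma pmass_nonneg (μA μB : Bool → ℝ) (M : Bool → Bool → ℝ) (hA : ∀ b, 0 ≤ μA b)
    (hB : ∀ b, 0 ≤ μB b) (hM : ∀ a b, 0 ≤ M a b) : 0 ≤ pmass μA μB M :=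
  Finset.sum_nonneg fun _ _ => mul_nonneg (mul_nonneg (hA _) (hB _)) (hM _ _)

lemma power_bound (c : V → Bool) (E : Finset (V × V)) (μA μB : Bool → ℝ)
    (M : Bool → Bool → ℝ) (hE : ∀ e ∈ E, c e.1 = false ∧ c e.2 = true)
    (hA : ∀ b, 0 ≤ μA b) (hB : ∀ b, 0 ≤ μB b) (hM : ∀ a b, 0 ≤ M a b)
    (h1A : μA true + μA false = 1) (h1B : μB true + μB false = 1)
    (hdet : M true true * M false false ≤ M true false * M false true) (k : ℕ) :
    (pmass μA μB M ^ E.card) ^ k
      ≤ ((k:ℝ) + 1) ^ (2 * E.card) * (∑ σ : V → Bool, wt (muV c μA μB) M E σ) ^ k := by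
  obtain ⟨rA, rB, hr⟩ := pigeon k μA μB M
  rw [sum_Gk_slice] at hr
  have D := sliceData_mres k c E μA μB M hA hB hM hdet rA rB
  have hmain := D.main c rA rB E hE (by
    intro e he
    constructor
    · intro x hx
      unfold mres
      rw [if_pos]
      refine ⟨⟨e, he, Or.inl rfl⟩, ?_⟩
      simpa [rOf, (hE e he).1] using hx
    · intro y hy
      unfold mres
      rw [if_pos]
      refine ⟨⟨e, he, Or.inr rfl⟩, ?_⟩
      simpa [rOf, (hE e he).2] using hy)
  have hlow := Zf_empty_lower k c E μA μB (Kk k M) hE hA hB h1A h1B rA rB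
  have hup := Zf_mres_le k c E μA μB M hA hB hM rA rB
  rw [← tensor_identity] at hup
  have k0 := D.kmean_nonneg rA rB
  have p0 := pmass_nonneg μA μB M hA hB hM
  have step1 : (pmass μA μB M ^ k) ^ E.card ≤ (((k:ℝ) + 1) ^ 2 *
      (kmean (Kk k M) rA rB * sliceMass k μA rA * sliceMass k μB rB)) ^ E.card :=
    pow_le_pow_left₀ (pow_nonneg p0 _) hr _
  have step2 : (kmean (Kk k M) rA rB * sliceMass k μA rA * sliceMass k μB rB) ^ E.card
      ≤ (∑ σ : V → Bool, wt (muV c μA μB) M E σ) ^ k := by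
    calc (kmean (Kk k M) rA rB * sliceMass k μA rA * sliceMass k μB rB) ^ E.card
        = kmean (Kk k M) rA rB ^ E.card *
          (sliceMass k μA rA ^ E.card * sliceMass k μB rB ^ E.card) := by
          rw [mul_pow, mul_pow]; ring
      _ ≤ kmean (Kk k M) rA rB ^ E.card * Zf (mres k c E μA μB rA rB) (Kk k M) ∅ :=
          mul_le_mul_of_nonneg_left hlow (pow_nonneg k0 _)
      _ ≤ Zf (mres k c E μA μB rA rB) (Kk k M) E := hmain
      _ ≤ _ := hup
  calc (pmass μA μB M ^ E.card) ^ k = (pmass μA μB M ^ k) ^ E.card := by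
        rw [← pow_mul, ← pow_mul, mul_comm]
    _ ≤ (((k:ℝ) + 1) ^ 2 *
      (kmean (Kk k M) rA rB * sliceMass k μA rA * sliceMass k μB rB)) ^ E.card := step1
    _ = ((k:ℝ) + 1) ^ (2 * E.card) *
      (kmean (Kk k M) rA rB * sliceMass k μA rA * sliceMass k μB rB) ^ E.card := by
        rw [mul_pow, ← pow_mul]
    _ ≤ _ := mul_le_mul_of_nonneg_left step2 (by positivity)

lemma limit_lemma (P Z : ℝ) (hZ : 0 ≤ Z) (d : ℕ)
    (h : ∀ k : ℕ, P ^ k ≤ ((k:ℝ) + 1) ^ d * Z ^ k) : P ≤ Z := by
  by_contra hlt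
  push Not at hlt
  rcases eq_or_lt_of_le hZ with h0 | hpos
  · have := h 1
    rw [← h0] at this hlt
    simp at this
    linarith
  · set r := P / Z with hr
    have hr1 : 1 < r := by rw [hr, lt_div_iff₀ hpos]; linarith
    have hrpos : 0 < r := by linarith
    have hk : ∀ k : ℕ, r ^ k ≤ ((k:ℝ) + 1) ^ d := by
      intro k
      rw [hr, div_pow, div_le_iff₀ (pow_pos hpos k)]
      exact h k
    have ht := tendsto_pow_const_div_const_pow_of_one_lt d hr1
    have hev := (tendsto_order.1 ht).2 (1 / r) (by positivity)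
    obtain ⟨N, hN⟩ := Filter.eventually_atTop.1 hev
    have h1 := hN (N + 1) (by omega)
    have h2 := hk N
    have : (1:ℝ) / r ≤ ((N + 1 : ℕ) : ℝ) ^ d / r ^ (N + 1) := by
      rw [div_le_div_iff₀ hrpos (pow_pos hrpos _)]
      push_cast
      rw [pow_succ]
      nlinarith [pow_pos hrpos N]
    linarith

/-- Sidorenko inequality for two state models with nonpositive determinant -/
theorem two_state (c : V → Bool) (E : Finset (V × V)) (μA μB : Bool → ℝ)
    (M : Bool → Bool → ℝ) (hE : ∀ e ∈ E, c e.1 = false ∧ c e.2 = true)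
    (hA : ∀ b, 0 ≤ μA b) (hB : ∀ b, 0 ≤ μB b) (hM : ∀ a b, 0 ≤ M a b)
    (h1A : μA true + μA false = 1) (h1B : μB true + μB false = 1)
    (hdet : M true true * M false false ≤ M true false * M false true) :
    pmass μA μB M ^ E.card ≤ ∑ σ : V → Bool, wt (muV c μA μB) M E σ := by
  apply limit_lemma _ _ _ (2 * E.card)
    (power_bound c E μA μB M hE hA hB hM h1A h1B hdet)
  apply Finset.sum_nonneg
  intro σ _
  unfold wt
  apply mul_nonneg
  · apply Finset.prod_nonneg
    intro v _
    unfold muV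
    split_ifs
    · exact hB _
    · exact hA _
  · exact Finset.prod_nonneg fun _ _ => hM _ _

end Vale.Agent.P050
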