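import Mathlib
import Vale.Agent.P050.TwoState

open Finset

set_option linter.unusedSectionVars false

namespace Vale.Agent.P050

section anyM
variable {V : Type*} [Fintype V] [DecidableEq V]

lemma muV_same (c : V → Bool) (μ : Bool → ℝ) : muV c μ μ = fun _ => μ := by
  funext v
  unfold muV
  split_ifs <;> rfl

/-- flip the state on the side `c v = true` -/
def xorc (c : V → Bool) (σ : V → Bool) : V → Bool := fun v => xor (σ v) (c v)

lemma xorc_invol (c : V → Bool) : Function.Involutive (xorc c) := by
  intro σ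
  funext v
  simp [xorc]

/-- Sidorenko inequality for every two state model on a bipartite edge set -/
theorem two_state_any (c : V → Bool) (E : Finset (V × V)) (μ : Bool → ℝ)
    (M : Bool → Bool → ℝ) (hE : ∀ e ∈ E, c e.1 = false ∧ c e.2 = true)
    (hμ : ∀ b, 0 ≤ μ b) (hM : ∀ a b, 0 ≤ M a b) (h1 : μ true + μ false = 1) :
    pmass μ μ M ^ E.card ≤ ∑ σ : V → Bool, wt (fun _ => μ) M E σ := by
  by_cases hdet : M true true * M false false ≤ M true false * M false true
  · have := two_state c E μ μ M hE hμ hμ hM h1 h1 hdet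
    rwa [muV_same] at this
  · push Not at hdet
    set μ' : Bool → ℝ := fun b => μ (!b) with hμ'
    set M' : Bool → Bool → ℝ := fun a b => M a (!b) with hM'
    have := two_state c E μ μ' M' hE hμ (fun b => hμ _) (fun a b => hM _ _) h1
      (by simp only [hμ', Bool.not_true, Bool.not_false]; linarith)
      (by simp only [hM', Bool.not_true, Bool.not_false]; linarith)
    have e1 : pmass μ μ' M' = pmass μ μ M := by
      unfold pmass
      simp only [Fintype.sum_prod_type, Fintype.sum_bool, hμ', hM', Bool.not_true, Bool.not_false]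
      ring
    have e2 : ∑ σ : V → Bool, wt (muV c μ μ') M' E σ = ∑ σ : V → Bool, wt (fun _ => μ) M E σ := by
      rw [← Equiv.sum_comp (Function.Involutive.toPerm _ (xorc_invol c))]
      apply Finset.sum_congr rfl
      intro σ _
      simp only [Function.Involutive.coe_toPerm]
      unfold wt
      congr 1
      · apply Finset.prod_congr rfl
        intro v _
        unfold muV xorc
        cases hc : c v <;> simp [hμ']
      · apply Finset.prod_congr rfl
        intro e he
        obtain ⟨h1, h2⟩ := hE e he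
        simp [xorc, h1, h2, hM']
    rw [e1, e2] at this
    exact this

/-- push a product weight forward along a map applied vertexwise -/
lemma pushforward {X Y : Type*} [Fintype X] [Fintype Y] [DecidableEq X] [DecidableEq Y] (f : X → Y)
    (w : X → ℝ) (G : (V → Y) → ℝ) :
    ∑ ξ : V → X, (∏ v, w (ξ v)) * G (fun v => f (ξ v))
      = ∑ η : V → Y, (∏ v, ∑ x ∈ univ.filter (fun x => f x = η v), w x) * G η := by
  rw [← Finset.sum_fiberwise (s := univ) (g := fun ξ : V → X => fun v => f (ξ v))]
  apply Finset.sum_congr rfl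
  intro η _
  rw [Finset.prod_univ_sum, Finset.sum_mul]
  apply Finset.sum_congr
  · ext ξ
    simp only [Finset.mem_filter, Finset.mem_univ, true_and, Fintype.mem_piFinset]
    exact funext_iff
  · intro ξ hξ
    simp only [Fintype.mem_piFinset, Finset.mem_filter, Finset.mem_univ, true_and] at hξ
    rw [funext hξ]

end anyM


section host
variable {W : Type*} [Fintype W] [DecidableEq W]

/-- indicator weight of a vertex subset -/
def ind (S : Finset W) (x : W) : ℝ := if x ∈ S then 1 else 0

/-- density of the kernel `A` on the vertex subset `S` -/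
noncomputable def dens (A : W → W → ℝ) (S : Finset W) : ℝ :=
  (∑ x ∈ S, ∑ y ∈ S, A x y) / (S.card : ℝ) ^ 2

/-- the Sidorenko inequality for all bipartite edge sets, with host the kernel `A` on `S` -/
def HostOn.{u, v} {W : Type v} [Fintype W] [DecidableEq W] (A : W → W → ℝ) (S : Finset W) : Prop :=
  ∀ (V : Type u) [Fintype V] [DecidableEq V] (c : V → Bool) (E : Finset (V × V)),
    (∀ e ∈ E, c e.1 = false ∧ c e.2 = true) →
    dens A S ^ E.card * (S.card : ℝ) ^ Fintype.card V ≤ ∑ φ : V → W, wt (fun _ => ind S) A E φ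

lemma ind_nonneg (S : Finset W) (x : W) : 0 ≤ ind S x := by
  unfold ind; split_ifs <;> norm_num

lemma sum_ind (S : Finset W) : ∑ x, ind S x = S.card := by
  unfold ind
  rw [Finset.sum_boole]
  simp

lemma sum_ind_mul (S : Finset W) (g : W → ℝ) : ∑ x, ind S x * g x = ∑ x ∈ S, g x := by
  unfold ind
  simp [Finset.sum_ite_mem]

/-- the gluing map -/
def glueMap (x : Bool × W × W) : W := if x.1 then x.2.1 else x.2.2

/-- the weight upstairs -/
noncomputable def glueW (T T' : Finset W) (x : Bool × W × W) : ℝ :=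
  ind T x.2.1 * ind T' x.2.2 * (if x.1 then 1 / (T'.card : ℝ) else 1 / (T.card : ℝ))

lemma glue_fiber (T T' : Finset W) (hd : Disjoint T T') (hT : T.Nonempty) (hT' : T'.Nonempty)
    (y : W) : ∑ x ∈ univ.filter (fun x => glueMap x = y), glueW T T' x = ind (T ∪ T') y := by
  have ha : (T.card : ℝ) ≠ 0 := by
    have := hT.card_pos; positivity
  have hb : (T'.card : ℝ) ≠ 0 := by
    have := hT'.card_pos; positivity
  rw [Finset.sum_filter]
  simp only [Fintype.sum_prod_type, Fintype.sum_bool, glueMap, glueW, if_true, if_false,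
    Bool.false_eq_true]
  have e1 : ∑ x1 : W, ∑ x2 : W, (if x1 = y then ind T x1 * ind T' x2 * (1 / (T'.card : ℝ)) else 0)
      = ind T y := by
    rw [Finset.sum_eq_single y]
    · simp only [if_true]
      rw [← Finset.sum_mul, ← Finset.mul_sum, sum_ind]
      field_simp
    · intro x _ hx
      simp [hx]
    · intro h; exact absurd (Finset.mem_univ _) h
  have e2 : ∑ x1 : W, ∑ x2 : W, (if x2 = y then ind T x1 * ind T' x2 * (1 / (T.card : ℝ)) else 0)
      = ind T' y := by
    rw [Finset.sum_comm, Finset.sum_eq_single y]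
    · simp only [if_true]
      rw [← Finset.sum_mul, ← Finset.sum_mul, sum_ind]
      field_simp
    · intro x _ hx
      simp [hx]
    · intro h; exact absurd (Finset.mem_univ _) h
  rw [e1, e2]
  unfold ind
  by_cases h1 : y ∈ T
  · have h2 : y ∉ T' := Finset.disjoint_left.mp hd h1
    simp [h1, h2]
  · by_cases h2 : y ∈ T' <;> simp [h1, h2]


section glue
variable {V : Type*} [Fintype V] [DecidableEq V]

/-- merge two host maps according to a boolean label -/
def mrg (σ : V → Bool) (φ1 φ2 : V → W) : V → W := fun v => if σ v then φ1 v else φ2 v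

/-- edges with both ends labelled true -/
def Ett (E : Finset (V × V)) (σ : V → Bool) : Finset (V × V) :=
  E.filter (fun e => σ e.1 = true ∧ σ e.2 = true)
/-- edges with both ends labelled false -/
def Eff (E : Finset (V × V)) (σ : V → Bool) : Finset (V × V) :=
  E.filter (fun e => σ e.1 = false ∧ σ e.2 = false)
/-- edges with different labels -/
def Emx (E : Finset (V × V)) (σ : V → Bool) : Finset (V × V) :=
  E.filter (fun e => σ e.1 ≠ σ e.2)

lemma glue_expand (A : W → W → ℝ) (T T' : Finset W) (hd : Disjoint T T') (hT : T.Nonempty)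
    (hT' : T'.Nonempty) (E : Finset (V × V)) :
    ∑ φ : V → W, wt (fun _ => ind (T ∪ T')) A E φ
      = ∑ σ : V → Bool, ∑ φ1 : V → W, ∑ φ2 : V → W,
          (∏ v, glueW T T' (σ v, φ1 v, φ2 v)) *
            ∏ e ∈ E, A (mrg σ φ1 φ2 e.1) (mrg σ φ1 φ2 e.2) := by
  unfold wt
  simp_rw [← glue_fiber T T' hd hT hT']
  rw [← pushforward glueMap (glueW T T') (fun η : V → W => ∏ e ∈ E, A (η e.1) (η e.2))]
  rw [← Equiv.sum_comp (((Equiv.arrowProdEquivProdArrow V (fun _ => Bool) (fun _ => W × W)).trans
    (Equiv.prodCongr (Equiv.refl _)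
      (Equiv.arrowProdEquivProdArrow V (fun _ => W) (fun _ => W)))).symm)]
  rw [Fintype.sum_prod_type]
  apply Finset.sum_congr rfl
  intro σ _
  rw [Fintype.sum_prod_type]
  rfl

lemma glue_term (A : W → W → ℝ) (T T' : Finset W) (χ : ℝ)
    (h1 : ∀ x ∈ T, ∀ y ∈ T', A x y = χ) (h2 : ∀ x ∈ T', ∀ y ∈ T, A x y = χ)
    (E : Finset (V × V)) (σ : V → Bool) (φ1 φ2 : V → W) :
    (∏ v, glueW T T' (σ v, φ1 v, φ2 v)) * ∏ e ∈ E, A (mrg σ φ1 φ2 e.1) (mrg σ φ1 φ2 e.2)
      = ((∏ v, (if σ v then 1 / (T'.card : ℝ) else 1 / (T.card : ℝ))) * χ ^ (Emx E σ).card) *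
        (wt (fun _ => ind T) A (Ett E σ) φ1 * wt (fun _ => ind T') A (Eff E σ) φ2) := by
  have hw : ∏ v, glueW T T' (σ v, φ1 v, φ2 v)
      = (∏ v, ind T (φ1 v)) * (∏ v, ind T' (φ2 v)) *
        ∏ v, (if σ v then 1 / (T'.card : ℝ) else 1 / (T.card : ℝ)) := by
    unfold glueW
    rw [Finset.prod_mul_distrib, Finset.prod_mul_distrib]
  rw [hw]
  unfold wt
  by_cases g1 : ∀ v, φ1 v ∈ T
  · by_cases g2 : ∀ v, φ2 v ∈ T'
    · have key : ∏ e ∈ E, A (mrg σ φ1 φ2 e.1) (mrg σ φ1 φ2 e.2)
          = (∏ e ∈ Ett E σ, A (φ1 e.1) (φ1 e.2)) * (∏ e ∈ Eff E σ, A (φ2 e.1) (φ2 e.2)) *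
            χ ^ (Emx E σ).card := by
        unfold Ett Eff Emx
        rw [← Finset.prod_const, Finset.prod_filter, Finset.prod_filter, Finset.prod_filter,
          ← Finset.prod_mul_distrib, ← Finset.prod_mul_distrib]
        apply Finset.prod_congr rfl
        intro e _
        unfold mrg
        cases ha : σ e.1 <;> cases hb : σ e.2
        · simp
        · simp [h2 _ (g2 e.1) _ (g1 e.2)]
        · simp [h1 _ (g1 e.1) _ (g2 e.2)]
        · simp
      rw [key]
      ring
    · push Not at g2
      obtain ⟨v, hv⟩ := g2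
      have : ∏ v, ind T' (φ2 v) = 0 :=
        Finset.prod_eq_zero (Finset.mem_univ v) (by simp [ind, hv])
      rw [this]; ring
  · push Not at g1
    obtain ⟨v, hv⟩ := g1
    have : ∏ v, ind T (φ1 v) = 0 :=
      Finset.prod_eq_zero (Finset.mem_univ v) (by simp [ind, hv])
    rw [this]; ring


/-- the two state interaction obtained from the two densities and the cross weight -/
def MW (p1 p2 χ : ℝ) (a b : Bool) : ℝ :=
  if a then (if b then p1 else χ) else (if b then χ else p2)

lemma prod_MW (p1 p2 χ : ℝ) (E : Finset (V × V)) (σ : V → Bool) :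
    ∏ e ∈ E, MW p1 p2 χ (σ e.1) (σ e.2)
      = p1 ^ (Ett E σ).card * p2 ^ (Eff E σ).card * χ ^ (Emx E σ).card := by
  unfold Ett Eff Emx
  rw [← Finset.prod_const, ← Finset.prod_const, ← Finset.prod_const, Finset.prod_filter,
    Finset.prod_filter, Finset.prod_filter, ← Finset.prod_mul_distrib, ← Finset.prod_mul_distrib]
  apply Finset.prod_congr rfl
  intro e _
  unfold MW
  cases ha : σ e.1 <;> cases hb : σ e.2 <;> simp

lemma dens_nonneg (A : W → W → ℝ) (hA : ∀ x y, 0 ≤ A x y) (S : Finset W) : 0 ≤ dens A S := by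
  unfold dens
  exact div_nonneg (Finset.sum_nonneg fun _ _ => Finset.sum_nonneg fun _ _ => hA _ _) (by positivity)

lemma dens_union (A : W → W → ℝ) (T T' : Finset W) (hd : Disjoint T T') (hT : T.Nonempty)
    (hT' : T'.Nonempty) (χ : ℝ)
    (h1 : ∀ x ∈ T, ∀ y ∈ T', A x y = χ) (h2 : ∀ x ∈ T', ∀ y ∈ T, A x y = χ) :
    pmass (fun b : Bool => if b then (T.card : ℝ) / ((T.card : ℝ) + T'.card)
        else (T'.card : ℝ) / ((T.card : ℝ) + T'.card))
      (fun b : Bool => if b then (T.card : ℝ) / ((T.card : ℝ) + T'.card)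
        else (T'.card : ℝ) / ((T.card : ℝ) + T'.card)) (MW (dens A T) (dens A T') χ)
      = dens A (T ∪ T') := by
  have ha : (T.card : ℝ) ≠ 0 := by
    have := hT.card_pos; positivity
  have hb : (T'.card : ℝ) ≠ 0 := by
    have := hT'.card_pos; positivity
  have hN : (T.card : ℝ) + T'.card ≠ 0 := by
    have := hT.card_pos; positivity
  have c1 : ∑ x ∈ T, ∑ y ∈ T', A x y = (T.card : ℝ) * T'.card * χ := by
    rw [Finset.sum_congr rfl (fun x hx => Finset.sum_congr rfl (fun y hy => h1 x hx y hy))]
    simp; ring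
  have c2 : ∑ x ∈ T', ∑ y ∈ T, A x y = (T.card : ℝ) * T'.card * χ := by
    rw [Finset.sum_congr rfl (fun x hx => Finset.sum_congr rfl (fun y hy => h2 x hx y hy))]
    simp; ring
  unfold dens pmass MW
  rw [Finset.card_union_of_disjoint hd, Finset.sum_union hd]
  simp_rw [Finset.sum_union hd]
  rw [Finset.sum_add_distrib, Finset.sum_add_distrib, c1, c2]
  simp only [Fintype.sum_prod_type, Fintype.sum_bool, if_true, if_false, Bool.false_eq_true]
  push_cast
  field_simp

theorem HostOn.glue.{u, v} {W : Type v} [Fintype W] [DecidableEq W]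
    (A : W → W → ℝ) (hA : ∀ x y, 0 ≤ A x y) (T T' : Finset W) (hd : Disjoint T T')
    (hT : T.Nonempty) (hT' : T'.Nonempty) (χ : ℝ) (hχ : 0 ≤ χ)
    (h1 : ∀ x ∈ T, ∀ y ∈ T', A x y = χ) (h2 : ∀ x ∈ T', ∀ y ∈ T, A x y = χ)
    (HT : HostOn.{u} A T) (HT' : HostOn.{u} A T') : HostOn.{u} A (T ∪ T') := by
  intro V _ _ c E hE
  have ha : (0:ℝ) < (T.card : ℝ) := by
    have := hT.card_pos; positivity
  have hb : (0:ℝ) < (T'.card : ℝ) := by
    have := hT'.card_pos; positivity
  set a : ℝ := (T.card : ℝ) with haa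
  set b : ℝ := (T'.card : ℝ) with hbb
  set μ : Bool → ℝ := fun t : Bool => if t then a / (a + b) else b / (a + b) with hμ
  set p1 := dens A T with hp1
  set p2 := dens A T' with hp2
  have p10 : 0 ≤ p1 := dens_nonneg A hA T
  have p20 : 0 ≤ p2 := dens_nonneg A hA T'
  rw [glue_expand A T T' hd hT hT' E]
  simp_rw [glue_term A T T' χ h1 h2 E]
  have two := two_state_any c E μ (MW p1 p2 χ) hE
    (by intro t; simp only [hμ]; split_ifs <;> positivity)
    (by intro s t; unfold MW; split_ifs <;> assumption)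
    (by simp only [hμ, if_true, Bool.false_eq_true, if_false]; field_simp)
  have hdens := dens_union A T T' hd hT hT' χ h1 h2
  rw [← haa, ← hbb, ← hp1, ← hp2] at hdens
  rw [hdens] at two
  have hcard : ((T ∪ T').card : ℝ) = a + b := by
    rw [Finset.card_union_of_disjoint hd]; push_cast; rfl
  rw [hcard]
  calc dens A (T ∪ T') ^ E.card * (a + b) ^ Fintype.card V
      ≤ (∑ σ : V → Bool, wt (fun _ => μ) (MW p1 p2 χ) E σ) * (a + b) ^ Fintype.card V :=
        mul_le_mul_of_nonneg_right two (by positivity)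
    _ = ∑ σ : V → Bool, ((∏ v, (if σ v then 1 / b else 1 / a)) * χ ^ (Emx E σ).card) *
          ((p1 ^ (Ett E σ).card * a ^ Fintype.card V) *
           (p2 ^ (Eff E σ).card * b ^ Fintype.card V)) := by
        rw [Finset.sum_mul]
        apply Finset.sum_congr rfl
        intro σ _
        unfold wt
        rw [prod_MW]
        have e1 : (∏ v, μ (σ v)) * (a + b) ^ Fintype.card V
            = (∏ v, (if σ v then 1 / b else 1 / a)) * (a ^ Fintype.card V * b ^ Fintype.card V) := by
          rw [← Finset.card_univ, ← Finset.prod_const, ← Finset.prod_const, ← Finset.prod_const,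
            ← Finset.prod_mul_distrib, ← Finset.prod_mul_distrib, ← Finset.prod_mul_distrib]
          apply Finset.prod_congr rfl
          intro v _
          simp only [hμ]
          cases σ v
          · simp only [Bool.false_eq_true, if_false]; field_simp
          · simp only [if_true]; field_simp
        calc (∏ v, μ (σ v)) * (p1 ^ (Ett E σ).card * p2 ^ (Eff E σ).card * χ ^ (Emx E σ).card) *
              (a + b) ^ Fintype.card V
            = ((∏ v, μ (σ v)) * (a + b) ^ Fintype.card V) *
              (p1 ^ (Ett E σ).card * p2 ^ (Eff E σ).card * χ ^ (Emx E σ).card) := by ring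
          _ = _ := by rw [e1]; ring
    _ ≤ ∑ σ : V → Bool, ∑ φ1 : V → W, ∑ φ2 : V → W,
          ((∏ v, (if σ v then 1 / b else 1 / a)) * χ ^ (Emx E σ).card) *
          (wt (fun _ => ind T) A (Ett E σ) φ1 * wt (fun _ => ind T') A (Eff E σ) φ2) := by
        apply Finset.sum_le_sum
        intro σ _
        simp_rw [← Finset.mul_sum]
        rw [← Finset.sum_mul]
        apply mul_le_mul_of_nonneg_left
        · have i1 := HT V c (Ett E σ) (fun e he => hE e (Finset.mem_filter.mp he).1)
          have i2 := HT' V c (Eff E σ) (fun e he => hE e (Finset.mem_filter.mp he).1)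
          exact mul_le_mul i1 i2 (by positivity) (le_trans (by positivity) i1)
        · apply mul_nonneg _ (pow_nonneg hχ _)
          apply Finset.prod_nonneg
          intro v _
          split_ifs <;> positivity

end glue

end host

end Vale.Agent.P050
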