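import Mathlib
import Vale.Agent.P050.Host
import Vale.Agent.P050.Defs

open Finset

set_option linter.unusedSectionVars false

namespace Vale.Agent.P050

open Classical in
/-- adjacency indicator -/
noncomputable def adjInd {W : Type*} (G : SimpleGraph W) (x y : W) : ℝ := if G.Adj x y then 1 else 0

lemma adjInd_nonneg {W : Type*} (G : SimpleGraph W) (x y : W) : 0 ≤ adjInd G x y := by
  unfold adjInd; split_ifs <;> norm_num

section
variable {W : Type*} [Fintype W] [DecidableEq W]

lemma sum_adjInd (G : SimpleGraph W) :
    ∑ x, ∑ y, adjInd G x y = 2 * (Nat.card G.edgeSet : ℝ) := by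
  classical
  have h := G.sum_degrees_eq_twice_card_edges
  have h2 : (Nat.card G.edgeSet) = G.edgeFinset.card := by
    rw [Nat.card_eq_fintype_card, SimpleGraph.edgeFinset_card]
  rw [h2]
  have h3 : ∀ x, ∑ y, adjInd G x y = (G.degree x : ℝ) := by
    intro x
    unfold adjInd
    rw [Finset.sum_boole, ← SimpleGraph.card_neighborFinset_eq_degree,
      SimpleGraph.neighborFinset_eq_filter]
  simp_rw [h3]
  exact_mod_cast h

lemma dens_univ (G : SimpleGraph W) : dens (adjInd G) univ = edgeDensity G := by
  unfold dens edgeDensity
  rw [sum_adjInd, Finset.card_univ]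

end

section
variable {V : Type*} [Fintype V] [DecidableEq V]

open Classical in
/-- the edges of a properly two coloured graph, oriented from colour false to colour true -/
noncomputable def orientedEdges (H : SimpleGraph V) (c : V → Bool) : Finset (V × V) :=
  univ.filter (fun e => H.Adj e.1 e.2 ∧ c e.1 = false ∧ c e.2 = true)

lemma orientedEdges_spec (H : SimpleGraph V) (c : V → Bool) :
    ∀ e ∈ orientedEdges H c, c e.1 = false ∧ c e.2 = true := by
  intro e he
  unfold orientedEdges at he
  simp only [Finset.mem_filter, Finset.mem_univ, true_and] at he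
  exact he.2

lemma card_orientedEdges (H : SimpleGraph V) (c : V → Bool)
    (hc : ∀ a b, H.Adj a b → c a ≠ c b) :
    (orientedEdges H c).card = Nat.card H.edgeSet := by
  classical
  have h2 : (Nat.card H.edgeSet) = H.edgeFinset.card := by
    rw [Nat.card_eq_fintype_card, SimpleGraph.edgeFinset_card]
  rw [h2]
  apply Finset.card_bij (fun e _ => s(e.1, e.2))
  · intro e he
    unfold orientedEdges at he
    simp only [Finset.mem_filter, Finset.mem_univ, true_and] at he
    simp [he.1]
  · intro e he e' he' heq
    have s1 := orientedEdges_spec H c e he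
    have s2 := orientedEdges_spec H c e' he'
    rw [Sym2.eq_iff] at heq
    rcases heq with ⟨h1, h2⟩ | ⟨h1, h2⟩
    · exact Prod.ext h1 h2
    · rw [h1, s2.2] at s1
      exact absurd s1.1 (by simp)
  · intro z hz
    induction z using Sym2.ind with
    | _ a b =>
      rw [SimpleGraph.mem_edgeFinset, SimpleGraph.mem_edgeSet] at hz
      have hne := hc a b hz
      cases ha : c a
      · refine ⟨(a, b), ?_, rfl⟩
        unfold orientedEdges
        simp only [Finset.mem_filter, Finset.mem_univ, true_and]
        refine ⟨hz, ha, ?_⟩
        cases hb : c b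
        · rw [ha, hb] at hne; exact absurd rfl hne
        · rfl
      · refine ⟨(b, a), ?_, Sym2.eq_swap⟩
        unfold orientedEdges
        simp only [Finset.mem_filter, Finset.mem_univ, true_and]
        refine ⟨hz.symm, ?_, ha⟩
        cases hb : c b
        · rfl
        · rw [ha, hb] at hne; exact absurd rfl hne

variable {W : Type*} [Fintype W] [DecidableEq W]

lemma hom_count (H : SimpleGraph V) (c : V → Bool) (hc : ∀ a b, H.Adj a b → c a ≠ c b)
    (G : SimpleGraph W) :
    ∑ φ : V → W, wt (fun _ => ind (univ : Finset W)) (adjInd G) (orientedEdges H c) φ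
      = (Nat.card (H →g G) : ℝ) := by
  classical
  have e : (H →g G) ≃ {φ : V → W // ∀ a b, H.Adj a b → G.Adj (φ a) (φ b)} :=
    { toFun := fun f => ⟨f, fun a b h => f.map_rel h⟩
      invFun := fun φ => ⟨φ.1, fun {a b} h => φ.2 a b h⟩
      left_inv := fun f => rfl
      right_inv := fun φ => rfl }
  rw [Nat.card_congr e, Nat.card_eq_fintype_card, Fintype.card_subtype, ← Finset.sum_boole]
  apply Finset.sum_congr rfl
  intro φ _
  unfold wt ind adjInd
  simp only [Finset.mem_univ, if_true, Finset.prod_const_one, one_mul]
  rw [Finset.prod_ite_zero, Finset.prod_const_one]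
  have hiff : (∀ e ∈ orientedEdges H c, G.Adj (φ e.1) (φ e.2)) ↔
      (∀ a b, H.Adj a b → G.Adj (φ a) (φ b)) := by
    constructor
    · intro h a b hab
      have hne := hc a b hab
      cases ha : c a
      · apply h (a, b)
        unfold orientedEdges
        simp only [Finset.mem_filter, Finset.mem_univ, true_and]
        refine ⟨hab, ha, ?_⟩
        cases hb : c b
        · rw [ha, hb] at hne; exact absurd rfl hne
        · rfl
      · apply SimpleGraph.Adj.symm
        apply h (b, a)
        unfold orientedEdges
        simp only [Finset.mem_filter, Finset.mem_univ, true_and]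
        refine ⟨hab.symm, ?_, ha⟩
        cases hb : c b
        · rfl
        · rw [ha, hb] at hne; exact absurd rfl hne
    · intro h e he
      unfold orientedEdges at he
      simp only [Finset.mem_filter, Finset.mem_univ, true_and] at he
      exact h _ _ he.1
  by_cases h : ∀ a b, H.Adj a b → G.Adj (φ a) (φ b)
  · rw [if_pos h, if_pos (hiff.mpr h)]
  · rw [if_neg h, if_neg (fun h' => h (hiff.mp h'))]

/-- from the kernel inequality on the whole vertex set to the inequality of the problem -/
theorem sidorenko_of_hostOn.{u, v} {V : Type u} [Fintype V] {W : Type v} [Fintype W] [DecidableEq W]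
    [Nonempty W] (G : SimpleGraph W) (hG : HostOn.{u} (adjInd G) univ)
    (H : SimpleGraph V) (hH : H.IsBipartite) :
    edgeDensity G ^ Nat.card H.edgeSet ≤ homDensity H G := by
  classical
  obtain ⟨C⟩ := hH
  set c : V → Bool := fun v => decide (C v = 1) with hcdef
  have hc : ∀ a b, H.Adj a b → c a ≠ c b := by
    intro a b hab
    have := C.valid hab
    simp only [hcdef]
    intro h
    apply this
    have h' : (C a = 1) ↔ (C b = 1) := by simpa using h
    have fa : ∀ z : Fin 2, z = 0 ∨ z = 1 := by decide
    rcases fa (C a) with ha | ha <;> rcases fa (C b) with hb | hb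
    · rw [ha, hb]
    · exfalso; have := h'.mpr hb; rw [ha] at this; exact absurd this (by decide)
    · exfalso; have := h'.mp ha; rw [hb] at this; exact absurd this (by decide)
    · rw [ha, hb]
  have key := hG V c (orientedEdges H c) (orientedEdges_spec H c)
  rw [hom_count H c hc G, card_orientedEdges H c hc, dens_univ, Finset.card_univ] at key
  unfold homDensity
  have hpos : (0:ℝ) < (Fintype.card W : ℝ) ^ Fintype.card V := by
    have : 0 < Fintype.card W := Fintype.card_pos
    positivity
  rw [le_div_iff₀ hpos]
  exact key

end

end Vale.Agent.P050
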