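import Mathlib
import Vale.Agent.P050.Defs

namespace Vale.Agent.P050

/-- `G` is a Sidorenko host: Sidorenko's inequality `p(G)^|E(H)| ≤ t(H,G)` holds for this `G`
against every finite bipartite graph `H` -/
def SidorenkoHost.{u, v} {W : Type v} [Fintype W] (G : SimpleGraph W) : Prop :=
  ∀ (V : Type u) [Fintype V] (H : SimpleGraph V), H.IsBipartite →
    edgeDensity G ^ Nat.card H.edgeSet ≤ homDensity H G

end Vale.Agent.P050
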