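import Mathlib
import Vale.Agent.P050.Graph
import Vale.Agent.P050.HostDef

open Finset

set_option linter.unusedSectionVars false

namespace Vale.Agent.P050

section
variable {W W' : Type*} [Fintype W] [DecidableEq W] [Fintype W'] [DecidableEq W']

lemma sum_wt_map {V : Type*} [Fintype V] [DecidableEq V] (ι : W' ↪ W) (A : W → W → ℝ)
    (E : Finset (V × V)) :
    ∑ φ : V → W, wt (fun _ => ind (univ.map ι)) A E φ
      = ∑ ψ : V → W', wt (fun _ => ind (univ : Finset W')) (fun x y => A (ι x) (ι y)) E ψ := by
  have h := pushforward (V := V) (fun x : W' => ι x) (fun _ => (1:ℝ))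
    (fun η : V → W => ∏ e ∈ E, A (η e.1) (η e.2))
  have hfib : ∀ y : W, ∑ x ∈ univ.filter (fun x : W' => ι x = y), (1:ℝ) = ind (univ.map ι) y := by
    intro y
    unfold ind
    by_cases hy : y ∈ univ.map ι
    · rw [if_pos hy]
      obtain ⟨x, _, rfl⟩ := Finset.mem_map.mp hy
      have : univ.filter (fun x' : W' => ι x' = ι x) = {x} := by
        ext x'; simp
      rw [this]; simp
    · rw [if_neg hy]
      apply Finset.sum_eq_zero
      intro x hx
      exfalso
      apply hy
      simp only [Finset.mem_filter, Finset.mem_univ, true_and] at hx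
      exact Finset.mem_map.mpr ⟨x, Finset.mem_univ _, hx⟩
  simp_rw [hfib] at h
  unfold wt
  rw [← h]
  apply Finset.sum_congr rfl
  intro ψ _
  simp [ind]

lemma dens_map (ι : W' ↪ W) (A : W → W → ℝ) :
    dens A (univ.map ι) = dens (fun x y => A (ι x) (ι y)) (univ : Finset W') := by
  unfold dens
  rw [Finset.sum_map, Finset.card_map]
  simp_rw [Finset.sum_map]

end

theorem hostOn_map_iff.{u, v, w} {W : Type v} {W' : Type w} [Fintype W] [DecidableEq W] [Fintype W']
    [DecidableEq W'] (ι : W' ↪ W) (A : W → W → ℝ) :
    HostOn.{u} A (univ.map ι) ↔ HostOn.{u} (fun x y => A (ι x) (ι y)) (univ : Finset W') := by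
  constructor
  · intro h V _ _ c E hE
    have := h V c E hE
    rwa [sum_wt_map, dens_map, Finset.card_map] at this
  · intro h V _ _ c E hE
    have := h V c E hE
    rwa [sum_wt_map, dens_map, Finset.card_map]

theorem hostOn_of_sidorenkoHost.{u, v} {W : Type v} [Fintype W] [DecidableEq W] [Nonempty W]
    (G : SimpleGraph W) (hG : SidorenkoHost.{u} G) : HostOn.{u} (adjInd G) univ := by
  classical
  intro V _ _ c E hE
  set H : SimpleGraph V := SimpleGraph.fromRel (fun a b => (a, b) ∈ E) with hH
  have hadj : ∀ a b, H.Adj a b ↔ a ≠ b ∧ ((a, b) ∈ E ∨ (b, a) ∈ E) := by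
    intro a b; simp [hH, SimpleGraph.fromRel_adj]
  have hc : ∀ a b, H.Adj a b → c a ≠ c b := by
    intro a b hab
    rcases ((hadj a b).mp hab).2 with h | h
    · have := hE _ h
      simp only at this
      rw [this.1, this.2]; simp
    · have := hE _ h
      simp only at this
      rw [this.1, this.2]; simp
  have hbip : H.IsBipartite := by
    refine ⟨SimpleGraph.Coloring.mk (fun v => if c v then (1 : Fin 2) else 0) ?_⟩
    intro a b hab
    have := hc a b hab
    cases ha : c a <;> cases hb : c b <;> simp_all
  have hor : orientedEdges H c = E := by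
    ext e
    unfold orientedEdges
    simp only [Finset.mem_filter, Finset.mem_univ, true_and]
    constructor
    · rintro ⟨h1, h2, h3⟩
      rcases ((hadj _ _).mp h1).2 with h | h
      · exact h
      · have := (hE _ h).1
        simp only at this
        rw [h3] at this
        exact absurd this (by simp)
    · intro he
      have := hE e he
      refine ⟨(hadj _ _).mpr ⟨?_, Or.inl he⟩, this.1, this.2⟩
      intro heq
      rw [heq, this.2] at this
      exact absurd this.1 (by simp)
  have key := hG V H hbip
  unfold homDensity at key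
  have hpos : (0:ℝ) < (Fintype.card W : ℝ) ^ Fintype.card V := by
    have : 0 < Fintype.card W := Fintype.card_pos
    positivity
  rw [le_div_iff₀ hpos] at key
  rw [← hor, hom_count H c hc G, card_orientedEdges H c hc, dens_univ, Finset.card_univ]
  exact key

theorem sidorenkoHost_of_hostOn.{u, v} {W : Type v} [Fintype W] [DecidableEq W] [Nonempty W]
    (G : SimpleGraph W) (hG : HostOn.{u} (adjInd G) univ) : SidorenkoHost.{u} G := by
  intro V _ H hH
  exact sidorenko_of_hostOn G hG H hH

end Vale.Agent.P050
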