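import Mathlib
import Vale.Agent.P050.Transfer
import Vale.Agent.P050.HammingDef

open Finset

set_option linter.unusedSectionVars false

namespace Vale.Agent.P050

section generic

variable {V : Type*} [Fintype V] [DecidableEq V]
variable {Ω : Type*} [Fintype Ω] [DecidableEq Ω]
variable {m : V → Ω → ℝ} {K : Ω → Ω → ℝ}

/-- partition function on a general state space -/
def ZG (m : V → Ω → ℝ) (K : Ω → Ω → ℝ) (E : Finset (V × V)) : ℝ :=
  ∑ φ : V → Ω, wt m K E φ

lemma ZG_eq_sum_twoPt (E : Finset (V × V)) (u v : V) :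
    ZG m K E = ∑ p : Ω × Ω, twoPt m K E u v p.1 p.2 := by
  unfold ZG twoPt
  rw [Finset.sum_comm]
  apply Finset.sum_congr rfl
  intro φ _
  rw [Finset.sum_eq_single (φ u, φ v)]
  · simp
  · intro p _ hp
    rw [if_neg]
    rintro ⟨h1, h2⟩
    apply hp
    ext1 <;> simp [h1, h2]
  · intro h; exact absurd (Finset.mem_univ _) h

lemma ZG_insert (E : Finset (V × V)) (u v : V) (he : (u, v) ∉ E) :
    ZG m K (insert (u, v) E) = ∑ p : Ω × Ω, twoPt m K E u v p.1 p.2 * K p.1 p.2 := by
  unfold ZG twoPt
  simp_rw [Finset.sum_mul]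
  rw [Finset.sum_comm]
  apply Finset.sum_congr rfl
  intro φ _
  rw [Finset.sum_eq_single (φ u, φ v)]
  · simp only [and_self, if_true]
    unfold wt
    rw [Finset.prod_insert he]
    ring
  · intro p _ hp
    rw [if_neg, zero_mul]
    rintro ⟨h1, h2⟩
    apply hp
    ext1 <;> simp [h1, h2]
  · intro h; exact absurd (Finset.mem_univ _) h

lemma ZG_empty (m : V → Ω → ℝ) (K : Ω → Ω → ℝ) : ZG m K ∅ = ∏ v, ∑ x, m v x := by
  unfold ZG wt
  simp only [Finset.prod_empty, mul_one]
  rw [Finset.prod_univ_sum, Fintype.piFinset_univ]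

lemma twoPt_perm (σ : Equiv.Perm Ω) (hmσ : ∀ v x, m v (σ x) = m v x)
    (hKσ : ∀ x y, K (σ x) (σ y) = K x y) (E : Finset (V × V)) (u v : V) (x y : Ω) :
    twoPt m K E u v (σ x) (σ y) = twoPt m K E u v x y := by
  unfold twoPt
  have := Equiv.sum_comp (Equiv.piCongrRight (fun _ : V => σ))
    (fun φ : V → Ω => if φ u = σ x ∧ φ v = σ y then wt m K E φ else 0)
  rw [← this]
  apply Finset.sum_congr rfl
  intro φ _
  have e2 : (Equiv.piCongrRight (fun _ : V => σ)) φ = fun w => σ (φ w) := by
    funext w; rfl
  rw [e2]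
  have hw : wt m K E (fun w => σ (φ w)) = wt m K E φ := by
    unfold wt
    congr 1
    · exact Finset.prod_congr rfl (fun v _ => hmσ v _)
    · exact Finset.prod_congr rfl (fun e _ => hKσ _ _)
  rw [hw]
  simp only [σ.injective.eq_iff]

lemma KempeData.twoPt_tau {τ : Ω → Ω} {s : Ω → ℝ} (D : KempeData m K τ s) (E : Finset (V × V))
    (u v : V) (x y : Ω) : twoPt m K E u v (τ x) (τ y) = twoPt m K E u v x y :=
  twoPt_perm (D.hτ.toPerm τ) D.hmτ D.hKτ E u v x y

end generic

section hamming

variable {n : ℕ} {q : Fin n → ℕ}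
variable {V : Type*} [Fintype V] [DecidableEq V]

/-- words -/
abbrev HW (q : Fin n → ℕ) : Type := ∀ i : Fin n, Fin (q i + 2)

/-- the set of positions where two words differ -/
def diffSet (x y : HW q) : Finset (Fin n) := univ.filter (fun i => x i ≠ y i)

lemma mem_diffSet (x y : HW q) (i : Fin n) : i ∈ diffSet x y ↔ x i ≠ y i := by
  simp [diffSet]

/-- kernel depending on the difference set only -/
def hK (κ : Finset (Fin n) → ℝ) (x y : HW q) : ℝ := κ (diffSet x y)

/-- exchange the letters `a`, `b` in position `i` -/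
def lsw (i : Fin n) (a b : Fin (q i + 2)) (x : HW q) : HW q :=
  Function.update x i (Equiv.swap a b (x i))

/-- spin with respect to the letters `a`, `b` in position `i` -/
def lsg (i : Fin n) (a b : Fin (q i + 2)) (x : HW q) : ℝ :=
  if x i = a then 1 else if x i = b then -1 else 0

lemma lsw_self (i : Fin n) (a b : Fin (q i + 2)) (x : HW q) :
    lsw i a b x i = Equiv.swap a b (x i) := by
  unfold lsw; rw [Function.update_self]

lemma lsw_of_ne (i : Fin n) (a b : Fin (q i + 2)) (x : HW q) (j : Fin n) (h : j ≠ i) :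
    lsw i a b x j = x j := by
  unfold lsw; rw [Function.update_of_ne h]

lemma diffSet_lsw (i : Fin n) (a b : Fin (q i + 2)) (x y : HW q) :
    diffSet (lsw i a b x) (lsw i a b y) = diffSet x y := by
  ext j
  rw [mem_diffSet, mem_diffSet]
  by_cases h : j = i
  · subst h
    rw [lsw_self, lsw_self, (Equiv.swap a b).injective.ne_iff]
  · rw [lsw_of_ne _ _ _ _ _ h, lsw_of_ne _ _ _ _ _ h]

/-- standing hypotheses -/
structure HamData (m : V → HW q → ℝ) (κ : Finset (Fin n) → ℝ) : Prop where
  hm : ∀ v x, m v x = 1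
  hκ : ∀ z, 0 ≤ κ z
  hmono : Monotone κ

variable {m : V → HW q → ℝ} {κ : Finset (Fin n) → ℝ}

lemma HamData.kempeData (D : HamData m κ) (i : Fin n) (a b : Fin (q i + 2)) (hab : a ≠ b) :
    KempeData m (hK κ) (lsw i a b) (lsg i a b) where
  hm := fun v x => by rw [D.hm]; norm_num
  hK := fun x y => D.hκ _
  hτ := by
    intro x
    funext j
    by_cases h : j = i
    · subst h
      rw [lsw_self, lsw_self, Equiv.swap_apply_self]
    · rw [lsw_of_ne _ _ _ _ _ h, lsw_of_ne _ _ _ _ _ h]
  hs1 := by
    intro x
    unfold lsg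
    split_ifs <;> simp
  hsτ := by
    intro x
    unfold lsg
    rw [lsw_self]
    by_cases h1 : x i = a
    · rw [h1, Equiv.swap_apply_left]
      simp [hab.symm]
    · by_cases h2 : x i = b
      · rw [h2, Equiv.swap_apply_right]
        simp [hab.symm]
      · rw [Equiv.swap_apply_of_ne_of_ne h1 h2]
        simp [h1, h2]
  hs0 := by
    intro x hx
    unfold lsg at hx
    have h1 : x i ≠ a := by
      intro h; rw [if_pos h] at hx; norm_num at hx
    have h2 : x i ≠ b := by
      intro h; rw [if_neg h1, if_pos h] at hx; norm_num at hx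
    unfold lsw
    rw [Equiv.swap_apply_of_ne_of_ne h1 h2, Function.update_eq_self]
  hmτ := fun v x => by rw [D.hm, D.hm]
  hKτ := by
    intro x y
    unfold hK
    rw [diffSet_lsw]
  hAF := by
    intro x y hxy hx
    unfold hK
    apply D.hmono
    have hi : x i = y i := by
      unfold lsg at hxy hx
      by_cases h1 : x i = a
      · rw [if_pos h1] at hxy
        by_cases h3 : y i = a
        · rw [h1, h3]
        · rw [if_neg h3] at hxy
          split_ifs at hxy <;> norm_num at hxy
      · rw [if_neg h1] at hxy hx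
        by_cases h2 : x i = b
        · rw [if_pos h2] at hxy
          by_cases h3 : y i = a
          · rw [if_pos h3] at hxy; norm_num at hxy
          · rw [if_neg h3] at hxy
            by_cases h4 : y i = b
            · rw [h2, h4]
            · rw [if_neg h4] at hxy; norm_num at hxy
        · rw [if_neg h2] at hx
          exact absurd rfl hx
    intro j hj
    rw [mem_diffSet] at hj ⊢
    have hji : j ≠ i := by
      intro h; subst h; exact hj hi
    rw [lsw_of_ne _ _ _ _ _ hji]
    exact hj

lemma diffSet_add (a x y : HW q) : diffSet (x + a) (y + a) = diffSet x y := by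
  ext j
  rw [mem_diffSet, mem_diffSet, Pi.add_apply, Pi.add_apply]
  exact not_congr (add_left_inj _)

lemma HamData.twoPt_translate (D : HamData m κ) (E : Finset (V × V)) (u v : V) (a x y : HW q) :
    twoPt m (hK κ) E u v (x + a) (y + a) = twoPt m (hK κ) E u v x y :=
  twoPt_perm (Equiv.addRight a) (fun v x => by rw [D.hm, D.hm])
    (fun x y => by
      unfold hK
      exact congrArg κ (diffSet_add a x y)) E u v x y

/-- the two point function as a function of the difference -/
def gH (m : V → HW q → ℝ) (κ : Finset (Fin n) → ℝ) (E : Finset (V × V)) (u v : V) (z : HW q) : ℝ :=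
  twoPt m (hK κ) E u v 0 z

lemma HamData.twoPt_eq_gH (D : HamData m κ) (E : Finset (V × V)) (u v : V) (x y : HW q) :
    twoPt m (hK κ) E u v x y = gH m κ E u v (y - x) := by
  unfold gH
  rw [← D.twoPt_translate E u v (-x) x y, add_neg_cancel, sub_eq_add_neg]

lemma hK_eq (κ : Finset (Fin n) → ℝ) (x y : HW q) : hK κ x y = hK κ 0 (y - x) := by
  unfold hK
  rw [← diffSet_add (-x) x y, add_neg_cancel, sub_eq_add_neg]

lemma HamData.gH_nonneg (D : HamData m κ) (E : Finset (V × V)) (u v : V) (z : HW q) :
    0 ≤ gH m κ E u v z := by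
  unfold gH twoPt
  apply Finset.sum_nonneg
  intro φ _
  split_ifs
  · unfold wt
    exact mul_nonneg (Finset.prod_nonneg fun v _ => by rw [D.hm]; norm_num)
      (Finset.prod_nonneg fun e _ => D.hκ _)
  · exact le_refl _

lemma pi_mono_of_update (g : HW q → ℝ)
    (h : ∀ (z : HW q) (i : Fin n) (b : Fin (q i + 2)), z i ≤ b → g z ≤ g (Function.update z i b)) :
    Monotone g := by
  intro z z' hzz
  have key : ∀ t : Finset (Fin n), g z ≤ g (fun i => if i ∈ t then z' i else z i) := by
    intro t
    induction t using Finset.induction_on with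
    | empty => simp
    | insert i t hi ih =>
      have e : (fun j => if j ∈ insert i t then z' j else z j)
          = Function.update (fun j => if j ∈ t then z' j else z j) i (z' i) := by
        funext j
        by_cases hj : j = i
        · subst hj
          rw [Function.update_self]
          simp
        · rw [Function.update_of_ne hj]
          simp [Finset.mem_insert, hj]
      rw [e]
      refine ih.trans (h _ i (z' i) ?_)
      simp only [hi, if_false]
      exact hzz i
  have := key univ
  simpa using this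

lemma HamData.gH_mono (D : HamData m κ) (c : V → Bool) (E : Finset (V × V))
    (hE : ∀ e ∈ E, c e.1 = false ∧ c e.2 = true) (u v : V) (hu : c u = false) (hv : c v = true) :
    Monotone (gH m κ E u v) := by
  apply pi_mono_of_update
  intro z i b hzb
  unfold gH
  by_cases h1 : z i = b
  · rw [← h1, Function.update_eq_self]
  · by_cases h0 : z i = 0
    · have hb : (0 : Fin (q i + 2)) ≠ b := by
        intro h; exact h1 (h0.trans h)
      have h := (D.kempeData i 0 b hb).kempe c E hE u v hu hv 0 z
        (by simp [lsg]) (by simp [lsg, h0])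
      have e : lsw i 0 b z = Function.update z i b := by
        unfold lsw
        rw [h0, Equiv.swap_apply_left]
      rw [e] at h
      exact h
    · have hb : b ≠ 0 := by
        intro h
        rw [h] at hzb
        exact h0 (le_antisymm hzb (Fin.zero_le _))
      have h := (D.kempeData i (z i) b h1).twoPt_tau E u v 0 z
      have e0 : lsw i (z i) b (0 : HW q) = 0 := by
        unfold lsw
        rw [Pi.zero_apply, Equiv.swap_apply_of_ne_of_ne (Ne.symm h0) (Ne.symm hb)]
        exact Function.update_eq_self i (0 : HW q)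
      have e1 : lsw i (z i) b z = Function.update z i b := by
        unfold lsw
        rw [Equiv.swap_apply_left]
      rw [e0, e1] at h
      exact le_of_eq h.symm

lemma HamData.hK_mono (D : HamData m κ) : Monotone (fun z : HW q => hK κ 0 z) := by
  intro z z' hzz
  unfold hK
  apply D.hmono
  intro j hj
  rw [mem_diffSet] at hj ⊢
  intro h
  apply hj
  have h2 := hzz j
  rw [← h] at h2
  exact (le_antisymm h2 (Fin.zero_le _)).symm

lemma sum_pair_sub (F : HW q → ℝ) :
    ∑ p : HW q × HW q, F (p.2 - p.1) = (Fintype.card (HW q) : ℝ) * ∑ z, F z := by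
  rw [Fintype.sum_prod_type]
  have : ∀ x : HW q, ∑ y, F (y - x) = ∑ z, F z := by
    intro x
    exact Equiv.sum_comp (Equiv.subRight x) F
  simp only [this]
  simp

/-- mean value of the kernel -/
noncomputable def hmean (q : Fin n → ℕ) (κ : Finset (Fin n) → ℝ) : ℝ :=
  (∑ z : HW q, hK κ 0 z) / (Fintype.card (HW q) : ℝ)

lemma HamData.step_ineq (D : HamData m κ) (c : V → Bool) (E : Finset (V × V))
    (hE : ∀ e ∈ E, c e.1 = false ∧ c e.2 = true) (u v : V) (hu : c u = false) (hv : c v = true)
    (he : (u, v) ∉ E) :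
    hmean q κ * ZG m (hK κ) E ≤ ZG m (hK κ) (insert (u, v) E) := by
  have e1 : ZG m (hK κ) E = (Fintype.card (HW q) : ℝ) * ∑ z, gH m κ E u v z := by
    rw [ZG_eq_sum_twoPt E u v, ← sum_pair_sub]
    apply Finset.sum_congr rfl
    intro p _
    exact D.twoPt_eq_gH E u v p.1 p.2
  have e2 : ZG m (hK κ) (insert (u, v) E)
      = (Fintype.card (HW q) : ℝ) * ∑ z, gH m κ E u v z * hK κ 0 z := by
    rw [ZG_insert E u v he, ← sum_pair_sub (fun z => gH m κ E u v z * hK κ 0 z)]
    apply Finset.sum_congr rfl
    intro p _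
    rw [D.twoPt_eq_gH E u v p.1 p.2, hK_eq κ p.1 p.2]
  have hf := fkg (μ := fun _ : HW q => (1:ℝ)) (f := gH m κ E u v) (g := fun z : HW q => hK κ 0 z)
    (fun _ => zero_le_one) (fun z => D.gH_nonneg E u v z) (fun z => D.hκ _)
    (D.gH_mono c E hE u v hu hv) D.hK_mono (fun _ _ => le_refl _)
  simp only [one_mul, Finset.sum_const, Finset.card_univ, nsmul_eq_mul, mul_one] at hf
  have hpos : (0:ℝ) < (Fintype.card (HW q) : ℝ) := by
    exact_mod_cast Fintype.card_pos
  rw [e1, e2]
  unfold hmean
  rw [div_mul_eq_mul_div, div_le_iff₀ hpos]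
  nlinarith [hf]

lemma HamData.hmean_nonneg (D : HamData m κ) : 0 ≤ hmean q κ := by
  unfold hmean
  exact div_nonneg (Finset.sum_nonneg fun z _ => D.hκ _) (Nat.cast_nonneg _)

theorem HamData.main (D : HamData m κ) (c : V → Bool) (E : Finset (V × V)) :
    (∀ e ∈ E, c e.1 = false ∧ c e.2 = true) →
    hmean q κ ^ E.card * ZG m (hK κ) ∅ ≤ ZG m (hK κ) E := by
  induction E using Finset.induction_on with
  | empty => intro _; simp
  | insert e E he ih =>
    intro hE
    have hE' : ∀ e ∈ E, c e.1 = false ∧ c e.2 = true :=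
      fun e' h' => hE e' (Finset.mem_insert_of_mem h')
    have ih' := ih hE'
    obtain ⟨hu, hv⟩ := hE e (Finset.mem_insert_self _ _)
    have st := D.step_ineq c E hE' e.1 e.2 hu hv he
    rw [Finset.card_insert_of_notMem he, pow_succ]
    have k0 := D.hmean_nonneg
    calc hmean q κ ^ E.card * hmean q κ * ZG m (hK κ) ∅
        = hmean q κ * (hmean q κ ^ E.card * ZG m (hK κ) ∅) := by ring
      _ ≤ hmean q κ * ZG m (hK κ) E := mul_le_mul_of_nonneg_left ih' k0
      _ ≤ ZG m (hK κ) (insert e E) := st

end hamming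

theorem hK_hostOn.{u} (n : ℕ) (q : Fin n → ℕ) (κ : Finset (Fin n) → ℝ) (hκ : ∀ z, 0 ≤ κ z)
    (hmono : Monotone κ) : HostOn.{u} (hK (q := q) κ) (univ : Finset (HW q)) := by
  intro V _ _ c E hE
  have D : HamData (V := V) (fun _ => ind (univ : Finset (HW q))) κ :=
    { hm := fun _ x => by simp [ind]
      hκ := hκ
      hmono := hmono }
  have main := D.main c E hE
  rw [ZG_empty] at main
  simp only [sum_ind, Finset.prod_const, Finset.card_univ] at main
  have hk : hmean q κ = dens (hK (q := q) κ) (univ : Finset (HW q)) := by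
    unfold hmean dens
    have h1 : ∑ x : HW q, ∑ y : HW q, hK κ x y
        = (Fintype.card (HW q) : ℝ) * ∑ z : HW q, hK κ 0 z := by
      rw [← sum_pair_sub (fun z : HW q => hK κ 0 z), Fintype.sum_prod_type]
      apply Finset.sum_congr rfl
      intro x _
      apply Finset.sum_congr rfl
      intro y _
      exact hK_eq κ x y
    rw [h1, Finset.card_univ]
    have hpos : (0:ℝ) < (Fintype.card (HW q) : ℝ) := by
      exact_mod_cast Fintype.card_pos
    field_simp
  rw [hk] at main
  rw [Finset.card_univ]
  exact main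

theorem hammingGraph_hostOn.{u} (n : ℕ) (q : Fin n → ℕ) (S : Set (Finset (Fin n)))
    (hS : IsUpperSet S) : HostOn.{u} (adjInd (hammingGraph n q S)) univ := by
  classical
  set κ : Finset (Fin n) → ℝ := fun z => if z ≠ ∅ ∧ z ∈ S then 1 else 0 with hκdef
  have hκ : ∀ z, 0 ≤ κ z := by
    intro z
    simp only [hκdef]
    split_ifs <;> norm_num
  have hmono : Monotone κ := by
    intro z z' hzz
    simp only [hκdef]
    by_cases h : z ≠ ∅ ∧ z ∈ S
    · have h' : z' ≠ ∅ ∧ z' ∈ S := by
        refine ⟨?_, hS hzz h.2⟩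
        intro h0
        apply h.1
        rw [h0] at hzz
        exact Finset.subset_empty.mp hzz
      rw [if_pos h, if_pos h']
    · rw [if_neg h]
      split_ifs <;> norm_num
  have h := hK_hostOn.{u} n q κ hκ hmono
  have e : hK (q := q) κ = adjInd (hammingGraph n q S) := by
    funext x y
    unfold hK adjInd hammingGraph
    simp only [hκdef]
    have hne : diffSet x y ≠ ∅ ↔ x ≠ y := by
      constructor
      · intro h1 h2
        apply h1
        rw [h2]
        ext j
        simp [mem_diffSet]
      · intro h1 h2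
        apply h1
        funext j
        by_contra hj
        have : j ∈ diffSet x y := (mem_diffSet x y j).mpr hj
        rw [h2] at this
        exact absurd this (Finset.notMem_empty j)
    simp only [hne]
    by_cases hc : x ≠ y ∧ diffSet x y ∈ S
    · rw [if_pos hc]; exact (if_pos hc).symm
    · rw [if_neg hc]; exact (if_neg hc).symm
  rw [e] at h
  exact h

theorem hammingGraph_sidorenkoHost.{u} (n : ℕ) (q : Fin n → ℕ) (S : Set (Finset (Fin n)))
    (hS : IsUpperSet S) : SidorenkoHost.{u} (hammingGraph n q S) :=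
  sidorenkoHost_of_hostOn _ (hammingGraph_hostOn.{u} n q S hS)

end Vale.Agent.P050
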