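import Mathlib
import Vale.Agent.P050.Hamming
import Vale.Agent.P050.Circ1

open Finset

set_option linter.unusedSectionVars false

namespace Vale.Agent.P050

section torus

variable {n : ℕ} {q : Fin n → ℕ}
variable {V : Type*} [Fintype V] [DecidableEq V]

/-- points of the discrete torus -/
abbrev TW (q : Fin n → ℕ) : Type := ∀ i : Fin n, Fin (q i + 1)

/-- vector of circular distances from `0` -/
def cvec (z : TW q) : Fin n → ℕ := fun i => circ (z i)

/-- kernel depending on the circular distances only -/
def tK (κ : (Fin n → ℕ) → ℝ) (x y : TW q) : ℝ := κ (cvec (y - x))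

/-- reflection `t ↦ c - t` in the coordinate `i` -/
def rfx (i : Fin n) (c : Fin (q i + 1)) (x : TW q) : TW q := Function.update x i (c - x i)

lemma rfx_self (i : Fin n) (c : Fin (q i + 1)) (x : TW q) : rfx i c x i = c - x i := by
  unfold rfx; rw [Function.update_self]

lemma rfx_of_ne (i : Fin n) (c : Fin (q i + 1)) (x : TW q) (j : Fin n) (h : j ≠ i) :
    rfx i c x j = x j := by
  unfold rfx; rw [Function.update_of_ne h]

/-- standing hypotheses -/
structure TorData (m : V → TW q → ℝ) (κ : (Fin n → ℕ) → ℝ) : Prop where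
  hm : ∀ v x, m v x = 1
  hκ : ∀ z, 0 ≤ κ z
  hmono : Monotone κ

variable {m : V → TW q → ℝ} {κ : (Fin n → ℕ) → ℝ}

lemma TorData.kempeData (D : TorData m κ) (i : Fin n) (c : Fin (q i + 1)) :
    KempeData m (tK κ) (rfx i c) (fun x => side c (x i)) where
  hm := fun v x => by rw [D.hm]; norm_num
  hK := fun x y => D.hκ _
  hτ := by
    intro x
    funext j
    by_cases h : j = i
    · subst h
      rw [rfx_self, rfx_self, sub_sub_cancel]
    · rw [rfx_of_ne _ _ _ _ h, rfx_of_ne _ _ _ _ h]
  hs1 := fun x => side_vals c (x i)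
  hsτ := by
    intro x
    simp only [rfx_self]
    exact side_refl c (x i)
  hs0 := by
    intro x hx
    unfold rfx
    rw [side_fix c (x i) hx, Function.update_eq_self]
  hmτ := fun v x => by rw [D.hm, D.hm]
  hKτ := by
    intro x y
    unfold tK
    congr 1
    funext j
    unfold cvec
    rw [Pi.sub_apply, Pi.sub_apply]
    by_cases h : j = i
    · subst h
      rw [rfx_self, rfx_self, sub_sub_sub_cancel_left, ← circ_neg (y j - x j), neg_sub]
    · rw [rfx_of_ne _ _ _ _ h, rfx_of_ne _ _ _ _ h]
  hAF := by
    intro x y hxy hx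
    unfold tK
    apply D.hmono
    intro j
    unfold cvec
    rw [Pi.sub_apply, Pi.sub_apply]
    by_cases h : j = i
    · subst h
      rw [rfx_self]
      exact circ_refl_le c (x j) (y j) hxy hx
    · rw [rfx_of_ne _ _ _ _ h]

lemma TorData.twoPt_translate (D : TorData m κ) (E : Finset (V × V)) (u v : V) (a x y : TW q) :
    twoPt m (tK κ) E u v (x + a) (y + a) = twoPt m (tK κ) E u v x y :=
  twoPt_perm (Equiv.addRight a) (fun v x => by rw [D.hm, D.hm])
    (fun x y => by
      unfold tK
      simp only [Equiv.coe_addRight, add_sub_add_right_eq_sub]) E u v x y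

/-- the two point function as a function of the difference -/
def gC (m : V → TW q → ℝ) (κ : (Fin n → ℕ) → ℝ) (E : Finset (V × V)) (u v : V) (z : TW q) : ℝ :=
  twoPt m (tK κ) E u v 0 z

lemma TorData.twoPt_eq_gC (D : TorData m κ) (E : Finset (V × V)) (u v : V) (x y : TW q) :
    twoPt m (tK κ) E u v x y = gC m κ E u v (y - x) := by
  unfold gC
  rw [← D.twoPt_translate E u v (-x) x y, add_neg_cancel, sub_eq_add_neg]

lemma tK_eq (κ : (Fin n → ℕ) → ℝ) (x y : TW q) : tK κ x y = tK κ 0 (y - x) := by
  unfold tK
  rw [sub_zero]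

lemma TorData.gC_nonneg (D : TorData m κ) (E : Finset (V × V)) (u v : V) (z : TW q) :
    0 ≤ gC m κ E u v z := by
  unfold gC twoPt
  apply Finset.sum_nonneg
  intro φ _
  split_ifs
  · unfold wt
    exact mul_nonneg (Finset.prod_nonneg fun v _ => by rw [D.hm]; norm_num)
      (Finset.prod_nonneg fun e _ => D.hκ _)
  · exact le_refl _

/-- monotone in all circular distances -/
def CircMono (F : TW q → ℝ) : Prop :=
  ∀ z z' : TW q, (∀ i, circ (z i) ≤ circ (z' i)) → F z ≤ F z'

lemma circMono_of_update (g : TW q → ℝ)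
    (h : ∀ (z : TW q) (i : Fin n) (b : Fin (q i + 1)), circ (z i) ≤ circ b →
      g z ≤ g (Function.update z i b)) : CircMono g := by
  intro z z' hzz
  have key : ∀ t : Finset (Fin n), g z ≤ g (fun i => if i ∈ t then z' i else z i) := by
    intro t
    induction t using Finset.induction_on with
    | empty => simp
    | insert i t hi ih =>
      have e : (fun j => if j ∈ insert i t then z' j else z j)
          = Function.update (fun j => if j ∈ t then z' j else z j) i (z' i) := by
        funext j
        by_cases hj : j = i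
        · subst hj
          rw [Function.update_self]
          simp
        · rw [Function.update_of_ne hj]
          simp [Finset.mem_insert, hj]
      rw [e]
      refine ih.trans (h _ i (z' i) ?_)
      simp only [hi, if_false]
      exact hzz i
  have := key univ
  simpa using this

lemma TorData.gC_mono (D : TorData m κ) (c : V → Bool) (E : Finset (V × V))
    (hE : ∀ e ∈ E, c e.1 = false ∧ c e.2 = true) (u v : V) (hu : c u = false) (hv : c v = true) :
    CircMono (gC m κ E u v) := by
  apply circMono_of_update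
  intro z i b hzb
  have main := circ_mono_fin (fun t : Fin (q i + 1) => gC m κ E u v (Function.update z i t)) ?_ ?_
    (z i) b hzb
  · simp only [Function.update_eq_self] at main
    exact main
  · intro t
    unfold gC
    have h := (D.kempeData i 0).twoPt_tau E u v 0 (Function.update z i t)
    have e0 : rfx i 0 (0 : TW q) = 0 := by
      unfold rfx
      rw [Pi.zero_apply, sub_zero]
      exact Function.update_eq_self i (0 : TW q)
    have e1 : rfx i 0 (Function.update z i t) = Function.update z i (-t) := by
      unfold rfx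
      rw [Function.update_self, Function.update_idem, zero_sub]
    rw [e0, e1] at h
    exact h
  · intro j hj
    unfold gC
    set cc : Fin (q i + 1) := ⟨2 * j + 1, by omega⟩ with hcc
    have h := (D.kempeData i cc).kempe c E hE u v hu hv 0 (Function.update z i ⟨j, by omega⟩)
      (by
        simp only [Pi.zero_apply]
        rw [side_eq_one]
        left
        simp [hcc])
      (by
        simp only [Function.update_self]
        rw [side_eq_one]
        left
        simp [hcc])
    have e1 : rfx i cc (Function.update z i ⟨j, by omega⟩) = Function.update z i ⟨j + 1, by omega⟩ := by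
      unfold rfx
      rw [Function.update_self, Function.update_idem]
      congr 1
      apply Fin.ext
      rw [val_sub']
      simp only [hcc]
      rw [if_pos (by omega)]
      omega
    rw [e1] at h
    exact h

lemma TorData.tK_mono (D : TorData m κ) : CircMono (fun z : TW q => tK κ 0 z) := by
  intro z z' hzz
  unfold tK
  apply D.hmono
  intro j
  unfold cvec
  rw [sub_zero, sub_zero]
  exact hzz j

lemma fkg_circ (F G : TW q → ℝ) (hF0 : ∀ z, 0 ≤ F z) (hG0 : ∀ z, 0 ≤ G z) (hF : CircMono F)
    (hG : CircMono G) :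
    (∑ z, F z) * ∑ z, G z ≤ (Fintype.card (TW q) : ℝ) * ∑ z, F z * G z := by
  set σ : ∀ i : Fin n, Equiv.Perm (Fin (q i + 1)) :=
    fun i => Tuple.sort (fun t : Fin (q i + 1) => circ t) with hσ
  set e : TW q ≃ TW q := Equiv.piCongrRight σ with he
  have hm : ∀ (Φ : TW q → ℝ), CircMono Φ → Monotone (fun w => Φ (e w)) := by
    intro Φ hΦ w w' hww
    apply hΦ
    intro i
    exact Tuple.monotone_sort (fun t : Fin (q i + 1) => circ t) (hww i)
  have hf := fkg (μ := fun _ : TW q => (1:ℝ)) (f := fun w => F (e w)) (g := fun w => G (e w))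
    (fun _ => zero_le_one) (fun z => hF0 _) (fun z => hG0 _) (hm F hF) (hm G hG)
    (fun _ _ => le_refl _)
  simp only [one_mul, Finset.sum_const, Finset.card_univ, nsmul_eq_mul, mul_one] at hf
  rw [Equiv.sum_comp e F, Equiv.sum_comp e G, Equiv.sum_comp e (fun z => F z * G z)] at hf
  exact hf

lemma sum_pair_sub' (F : TW q → ℝ) :
    ∑ p : TW q × TW q, F (p.2 - p.1) = (Fintype.card (TW q) : ℝ) * ∑ z, F z := by
  rw [Fintype.sum_prod_type]
  have : ∀ x : TW q, ∑ y, F (y - x) = ∑ z, F z := by
    intro x
    exact Equiv.sum_comp (Equiv.subRight x) F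
  simp only [this]
  simp

/-- mean value of the kernel -/
noncomputable def tmean (q : Fin n → ℕ) (κ : (Fin n → ℕ) → ℝ) : ℝ :=
  (∑ z : TW q, tK κ 0 z) / (Fintype.card (TW q) : ℝ)

lemma TorData.step_ineq (D : TorData m κ) (c : V → Bool) (E : Finset (V × V))
    (hE : ∀ e ∈ E, c e.1 = false ∧ c e.2 = true) (u v : V) (hu : c u = false) (hv : c v = true)
    (he : (u, v) ∉ E) :
    tmean q κ * ZG m (tK κ) E ≤ ZG m (tK κ) (insert (u, v) E) := by
  have e1 : ZG m (tK κ) E = (Fintype.card (TW q) : ℝ) * ∑ z, gC m κ E u v z := by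
    rw [ZG_eq_sum_twoPt E u v, ← sum_pair_sub']
    apply Finset.sum_congr rfl
    intro p _
    exact D.twoPt_eq_gC E u v p.1 p.2
  have e2 : ZG m (tK κ) (insert (u, v) E)
      = (Fintype.card (TW q) : ℝ) * ∑ z, gC m κ E u v z * tK κ 0 z := by
    rw [ZG_insert E u v he, ← sum_pair_sub' (fun z => gC m κ E u v z * tK κ 0 z)]
    apply Finset.sum_congr rfl
    intro p _
    rw [D.twoPt_eq_gC E u v p.1 p.2, tK_eq κ p.1 p.2]
  have hf := fkg_circ (gC m κ E u v) (fun z : TW q => tK κ 0 z)
    (fun z => D.gC_nonneg E u v z) (fun z => D.hκ _) (D.gC_mono c E hE u v hu hv) D.tK_mono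
  have hpos : (0:ℝ) < (Fintype.card (TW q) : ℝ) := by
    exact_mod_cast Fintype.card_pos
  rw [e1, e2]
  unfold tmean
  rw [div_mul_eq_mul_div, div_le_iff₀ hpos]
  nlinarith [hf]

lemma TorData.tmean_nonneg (D : TorData m κ) : 0 ≤ tmean q κ := by
  unfold tmean
  exact div_nonneg (Finset.sum_nonneg fun z _ => D.hκ _) (Nat.cast_nonneg _)

theorem TorData.main (D : TorData m κ) (c : V → Bool) (E : Finset (V × V)) :
    (∀ e ∈ E, c e.1 = false ∧ c e.2 = true) →
    tmean q κ ^ E.card * ZG m (tK κ) ∅ ≤ ZG m (tK κ) E := by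
  induction E using Finset.induction_on with
  | empty => intro _; simp
  | insert e E he ih =>
    intro hE
    have hE' : ∀ e ∈ E, c e.1 = false ∧ c e.2 = true :=
      fun e' h' => hE e' (Finset.mem_insert_of_mem h')
    have ih' := ih hE'
    obtain ⟨hu, hv⟩ := hE e (Finset.mem_insert_self _ _)
    have st := D.step_ineq c E hE' e.1 e.2 hu hv he
    rw [Finset.card_insert_of_notMem he, pow_succ]
    have k0 := D.tmean_nonneg
    calc tmean q κ ^ E.card * tmean q κ * ZG m (tK κ) ∅
        = tmean q κ * (tmean q κ ^ E.card * ZG m (tK κ) ∅) := by ring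
      _ ≤ tmean q κ * ZG m (tK κ) E := mul_le_mul_of_nonneg_left ih' k0
      _ ≤ ZG m (tK κ) (insert e E) := st

end torus

theorem tK_hostOn.{u} (n : ℕ) (q : Fin n → ℕ) (κ : (Fin n → ℕ) → ℝ) (hκ : ∀ z, 0 ≤ κ z)
    (hmono : Monotone κ) : HostOn.{u} (tK (q := q) κ) (univ : Finset (TW q)) := by
  intro V _ _ c E hE
  have D : TorData (V := V) (fun _ => ind (univ : Finset (TW q))) κ :=
    { hm := fun _ x => by simp [ind]
      hκ := hκ
      hmono := hmono }
  have main := D.main c E hE
  rw [ZG_empty] at main
  simp only [sum_ind, Finset.prod_const, Finset.card_univ] at main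
  have hk : tmean q κ = dens (tK (q := q) κ) (univ : Finset (TW q)) := by
    unfold tmean dens
    have h1 : ∑ x : TW q, ∑ y : TW q, tK κ x y
        = (Fintype.card (TW q) : ℝ) * ∑ z : TW q, tK κ 0 z := by
      rw [← sum_pair_sub' (fun z : TW q => tK κ 0 z), Fintype.sum_prod_type]
      apply Finset.sum_congr rfl
      intro x _
      apply Finset.sum_congr rfl
      intro y _
      exact tK_eq κ x y
    rw [h1, Finset.card_univ]
    have hpos : (0:ℝ) < (Fintype.card (TW q) : ℝ) := by
      exact_mod_cast Fintype.card_pos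
    field_simp
  rw [hk] at main
  rw [Finset.card_univ]
  exact main

lemma circ_eq_zero {N : ℕ} (t : Fin (N + 1)) : circ t = 0 ↔ t = 0 := by
  have ht := t.isLt
  constructor
  · intro h
    apply Fin.ext
    unfold circ at h
    simp only [Fin.val_zero]
    omega
  · intro h
    rw [h]
    simp [circ]

theorem torusGraph_hostOn.{u} (n : ℕ) (q : Fin n → ℕ) (U : Set (Fin n → ℕ))
    (hU : IsUpperSet U) : HostOn.{u} (adjInd (torusGraph n q U)) univ := by
  classical
  set κ : (Fin n → ℕ) → ℝ := fun z => if z ≠ 0 ∧ z ∈ U then 1 else 0 with hκdef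
  have hκ : ∀ z, 0 ≤ κ z := by
    intro z
    simp only [hκdef]
    split_ifs <;> norm_num
  have hmono : Monotone κ := by
    intro z z' hzz
    simp only [hκdef]
    by_cases h : z ≠ 0 ∧ z ∈ U
    · have h' : z' ≠ 0 ∧ z' ∈ U := by
        refine ⟨?_, hU hzz h.2⟩
        intro h0
        apply h.1
        rw [h0] at hzz
        exact le_antisymm hzz (fun i => Nat.zero_le _)
      rw [if_pos h, if_pos h']
    · rw [if_neg h]
      split_ifs <;> norm_num
  have h := tK_hostOn.{u} n q κ hκ hmono
  have e : tK (q := q) κ = adjInd (torusGraph n q U) := by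
    funext x y
    unfold tK adjInd torusGraph
    simp only [hκdef]
    have hne : cvec (y - x) ≠ 0 ↔ x ≠ y := by
      constructor
      · intro h1 h2
        apply h1
        rw [h2, sub_self]
        funext j
        simp [cvec, circ]
      · intro h1 h2
        apply h1
        funext j
        have h3 := congrFun h2 j
        simp only [cvec, Pi.sub_apply, Pi.zero_apply] at h3
        rw [circ_eq_zero, sub_eq_zero] at h3
        exact h3.symm
    simp only [hne]
    by_cases hc : x ≠ y ∧ cvec (y - x) ∈ U
    · rw [if_pos hc]; exact (if_pos hc).symm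
    · rw [if_neg hc]; exact (if_neg hc).symm
  rw [e] at h
  exact h

theorem torusGraph_sidorenkoHost.{u} (n : ℕ) (q : Fin n → ℕ) (U : Set (Fin n → ℕ))
    (hU : IsUpperSet U) : SidorenkoHost.{u} (torusGraph n q U) :=
  sidorenkoHost_of_hostOn _ (torusGraph_hostOn.{u} n q U hU)

end Vale.Agent.P050
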