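import Mathlib
import Vale.Agent.P050.Transfer

open Finset

set_option linter.unusedSectionVars false

namespace Vale.Agent.P050

theorem glue_graph.{u, v} {W1 W2 : Type v} [Fintype W1] [Fintype W2] [DecidableEq W1]
    [DecidableEq W2] [Nonempty W1] [Nonempty W2]
    (G1 : SimpleGraph W1) (G2 : SimpleGraph W2) (G : SimpleGraph (W1 ⊕ W2)) (χ : ℝ) (hχ : 0 ≤ χ)
    (h11 : ∀ x y, G.Adj (Sum.inl x) (Sum.inl y) ↔ G1.Adj x y)
    (h22 : ∀ x y, G.Adj (Sum.inr x) (Sum.inr y) ↔ G2.Adj x y)
    (h12 : ∀ x y, adjInd G (Sum.inl x) (Sum.inr y) = χ)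
    (h1 : SidorenkoHost.{u} G1) (h2 : SidorenkoHost.{u} G2) : SidorenkoHost.{u} G := by
  classical
  apply sidorenkoHost_of_hostOn
  have H1 := hostOn_of_sidorenkoHost G1 h1
  have H2 := hostOn_of_sidorenkoHost G2 h2
  have e1 : (fun x y => adjInd G ((Function.Embedding.inl : W1 ↪ W1 ⊕ W2) x)
      ((Function.Embedding.inl : W1 ↪ W1 ⊕ W2) y)) = adjInd G1 := by
    funext x y
    unfold adjInd
    simp only [Function.Embedding.inl_apply, h11]
  have e2 : (fun x y => adjInd G ((Function.Embedding.inr : W2 ↪ W1 ⊕ W2) x)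
      ((Function.Embedding.inr : W2 ↪ W1 ⊕ W2) y)) = adjInd G2 := by
    funext x y
    unfold adjInd
    simp only [Function.Embedding.inr_apply, h22]
  have K1 : HostOn.{u} (adjInd G) (univ.map (Function.Embedding.inl : W1 ↪ W1 ⊕ W2)) := by
    rw [hostOn_map_iff, e1]; exact H1
  have K2 : HostOn.{u} (adjInd G) (univ.map (Function.Embedding.inr : W2 ↪ W1 ⊕ W2)) := by
    rw [hostOn_map_iff, e2]; exact H2
  have hun : (univ : Finset (W1 ⊕ W2)) = univ.map (Function.Embedding.inl : W1 ↪ W1 ⊕ W2) ∪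
      univ.map (Function.Embedding.inr : W2 ↪ W1 ⊕ W2) := by
    ext z
    rcases z with z | z <;> simp
  rw [hun]
  apply HostOn.glue (adjInd G) (adjInd_nonneg G) _ _ _ _ _ χ hχ _ _ K1 K2
  · rw [Finset.disjoint_left]
    intro z hz hz'
    simp only [Finset.mem_map, Finset.mem_univ, true_and, Function.Embedding.inl_apply,
      Function.Embedding.inr_apply] at hz hz'
    obtain ⟨a, rfl⟩ := hz
    obtain ⟨b, hb⟩ := hz'
    exact absurd hb (by simp)
  · exact (Finset.univ_nonempty).map
  · exact (Finset.univ_nonempty).map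
  · intro x hx y hy
    simp only [Finset.mem_map, Finset.mem_univ, true_and, Function.Embedding.inl_apply,
      Function.Embedding.inr_apply] at hx hy
    obtain ⟨a, rfl⟩ := hx
    obtain ⟨b, rfl⟩ := hy
    exact h12 a b
  · intro x hx y hy
    simp only [Finset.mem_map, Finset.mem_univ, true_and, Function.Embedding.inl_apply,
      Function.Embedding.inr_apply] at hx hy
    obtain ⟨a, rfl⟩ := hx
    obtain ⟨b, rfl⟩ := hy
    rw [← h12 b a]
    unfold adjInd
    simp only [G.adj_comm]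

theorem closure_sum_join.{u, v} {W1 W2 : Type v} [Fintype W1] [Fintype W2]
    [Nonempty W1] [Nonempty W2]
    (G1 : SimpleGraph W1) (G2 : SimpleGraph W2)
    (h1 : SidorenkoHost.{u} G1) (h2 : SidorenkoHost.{u} G2) :
    SidorenkoHost.{u} (G1 ⊕g G2) ∧
      SidorenkoHost.{u} ((G1 ⊕g G2) ⊔ completeBipartiteGraph W1 W2) := by
  classical
  constructor
  · apply glue_graph G1 G2 _ 0 le_rfl _ _ _ h1 h2
    · intro x y; simp
    · intro x y; simp
    · intro x y; unfold adjInd; simp
  · apply glue_graph G1 G2 _ 1 zero_le_one _ _ _ h1 h2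
    · intro x y; simp
    · intro x y; simp
    · intro x y; unfold adjInd; simp

end Vale.Agent.P050
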