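import Mathlib
import Vale.Agent.P050.Graph

open Finset

set_option linter.unusedSectionVars false

namespace Vale.Agent.P050

theorem hostOn_singleton.{u, v} {W : Type v} [Fintype W] [DecidableEq W] (A : W → W → ℝ) (x : W) :
    HostOn.{u} A {x} := by
  intro V _ _ c E _
  rw [Finset.sum_eq_single (fun _ => x)]
  · unfold wt dens ind
    simp
  · intro φ _ hφ
    have : ∃ v, φ v ≠ x := by
      by_contra h
      push Not at h
      exact hφ (funext h)
    obtain ⟨v, hv⟩ := this
    unfold wt
    rw [Finset.prod_eq_zero (Finset.mem_univ v) (by simp [ind, hv]), zero_mul]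
  · intro h; exact absurd (Finset.mem_univ _) h

theorem cograph_hostOn.{u, v} {W : Type v} [Fintype W] [DecidableEq W] (G : SimpleGraph W)
    (hG : IsCograph G) : ∀ (n : ℕ) (S : Finset W), S.card = n → S.Nonempty →
      HostOn.{u} (adjInd G) S := by
  intro n
  induction n using Nat.strong_induction_on with
  | _ n ih =>
    intro S hS hne
    by_cases h2 : 2 ≤ S.card
    · obtain ⟨T, hTS, hT, hT', hcross⟩ := hG S h2
      have hcard := Finset.card_sdiff_add_card_eq_card hTS
      have c1 := hT.card_pos
      have c2 := hT'.card_pos
      have H1 := ih T.card (by omega) T rfl hT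
      have H2 := ih (S \ T).card (by omega) (S \ T) rfl hT'
      have hunion : T ∪ (S \ T) = S := Finset.union_sdiff_of_subset hTS
      have hd : Disjoint T (S \ T) := Finset.disjoint_sdiff
      rw [← hunion]
      rcases hcross with hc | hc
      · apply HostOn.glue (adjInd G) (adjInd_nonneg G) T (S \ T) hd hT hT' 0 (le_refl _) _ _ H1 H2
        · intro a ha b hb
          simp [adjInd, hc a ha b hb]
        · intro b hb a ha
          have : ¬ G.Adj b a := fun h => hc a ha b hb h.symm
          simp [adjInd, this]
      · apply HostOn.glue (adjInd G) (adjInd_nonneg G) T (S \ T) hd hT hT' 1 zero_le_one _ _ H1 H2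
        · intro a ha b hb
          simp [adjInd, hc a ha b hb]
        · intro b hb a ha
          simp [adjInd, (hc a ha b hb).symm]
    · have h1 : S.card = 1 := by
        have := hne.card_pos; omega
      obtain ⟨x, hx⟩ := Finset.card_eq_one.mp h1
      rw [hx]
      exact hostOn_singleton _ x

theorem cograph_sidorenko {V W : Type*} [Fintype V] [Fintype W] [DecidableEq W] [Nonempty W]
    (H : SimpleGraph V) (hH : H.IsBipartite) (G : SimpleGraph W) (hG : IsCograph G) :
    edgeDensity G ^ Nat.card H.edgeSet ≤ homDensity H G :=
  sidorenko_of_hostOn G (cograph_hostOn G hG _ univ rfl Finset.univ_nonempty) H hH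

end Vale.Agent.P050
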