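import Mathlib
import Vale.Agent.P050.CircDef

namespace Vale.Agent.P050

/-- composition of a graph `G` with a discrete torus: the vertices are the pairs `(a, x)` with `a` a vertex of
`G` and `x` a point of `Z/(q 0 + 1) x ... x Z/(q (n-1) + 1)`; two distinct vertices `(a, x)`, `(b, y)` are
adjacent when the vector `v` of circular distances of `x` and `y` lies in `U1`, or `v` lies in `U0` and
`a`, `b` are adjacent in `G` -/
def compGraph {W : Type*} (G : SimpleGraph W) (n : ℕ) (q : Fin n → ℕ) (U0 U1 : Set (Fin n → ℕ)) :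
    SimpleGraph (W × (∀ i : Fin n, Fin (q i + 1))) where
  Adj a b := a ≠ b ∧ ((fun i => circ (b.2 i - a.2 i)) ∈ U1 ∨
    ((fun i => circ (b.2 i - a.2 i)) ∈ U0 ∧ G.Adj a.1 b.1))
  symm := ⟨fun a b h => by
    have e : (fun i => circ (a.2 i - b.2 i)) = (fun i => circ (b.2 i - a.2 i)) := by
      funext i
      rw [← circ_neg (b.2 i - a.2 i), neg_sub]
    refine ⟨h.1.symm, ?_⟩
    rw [e]
    rcases h.2 with h2 | h2
    · exact Or.inl h2
    · exact Or.inr ⟨h2.1, h2.2.symm⟩⟩
  loopless := ⟨fun a h => h.1 rfl⟩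

end Vale.Agent.P050
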