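import Mathlib
import Vale.Agent.P050.Circ
import Vale.Agent.P050.CompDef

open Finset

set_option linter.unusedSectionVars false

namespace Vale.Agent.P050

section

variable {W : Type*} [Fintype W] [DecidableEq W]
variable {V : Type*} [Fintype V] [DecidableEq V]

lemma wt_ind_univ (A : W → W → ℝ) (E : Finset (V × V)) (φ : V → W) :
    wt (fun _ => ind (univ : Finset W)) A E φ = ∏ e ∈ E, A (φ e.1) (φ e.2) := by
  unfold wt
  simp [ind]

lemma affine_host (A : W → W → ℝ) (E₀ : Finset (V × V)) (p : ℝ)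
    (h : ∀ E' : Finset (V × V), E' ⊆ E₀ →
      p ^ E'.card * (Fintype.card W : ℝ) ^ Fintype.card V ≤ ∑ φ : V → W, ∏ e ∈ E', A (φ e.1) (φ e.2))
    (α β : V × V → ℝ) (hα : ∀ e, 0 ≤ α e) (hβ : ∀ e, 0 ≤ β e) :
    (Fintype.card W : ℝ) ^ Fintype.card V * ∏ e ∈ E₀, (α e + β e * p)
      ≤ ∑ φ : V → W, ∏ e ∈ E₀, (α e + β e * A (φ e.1) (φ e.2)) := by
  simp_rw [Finset.prod_add]
  rw [Finset.mul_sum, Finset.sum_comm]
  apply Finset.sum_le_sum
  intro t _
  have hh := h (E₀ \ t) Finset.sdiff_subset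
  simp_rw [Finset.prod_mul_distrib]
  rw [← Finset.mul_sum, ← Finset.mul_sum, Finset.prod_const]
  have a0 : 0 ≤ ∏ e ∈ t, α e := Finset.prod_nonneg fun e _ => hα e
  have b0 : 0 ≤ ∏ e ∈ E₀ \ t, β e := Finset.prod_nonneg fun e _ => hβ e
  calc (Fintype.card W : ℝ) ^ Fintype.card V * ((∏ e ∈ t, α e) * ((∏ e ∈ E₀ \ t, β e) * p ^ (E₀ \ t).card))
      = (∏ e ∈ t, α e) * ((∏ e ∈ E₀ \ t, β e) *
          (p ^ (E₀ \ t).card * (Fintype.card W : ℝ) ^ Fintype.card V)) := by ring
    _ ≤ _ := mul_le_mul_of_nonneg_left (mul_le_mul_of_nonneg_left hh b0) a0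

/-- splitting a map into a product -/
def splitEquiv (V W T : Type*) : (V → W × T) ≃ (V → W) × (V → T) where
  toFun Φ := (fun v => (Φ v).1, fun v => (Φ v).2)
  invFun p := fun v => (p.1 v, p.2 v)
  left_inv Φ := by funext v; rfl
  right_inv p := rfl

variable {n : ℕ} {q : Fin n → ℕ}

/-- kernel of the composition -/
def cmpK (A : W → W → ℝ) (κ0 κ1 : (Fin n → ℕ) → ℝ) (a b : W × TW q) : ℝ :=
  κ1 (cvec (b.2 - a.2)) + (κ0 (cvec (b.2 - a.2)) - κ1 (cvec (b.2 - a.2))) * A a.1 b.1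

lemma sum_cmpK [Nonempty W] (A : W → W → ℝ) (κ0 κ1 : (Fin n → ℕ) → ℝ) :
    ∑ a : W × TW q, ∑ b : W × TW q, cmpK A κ0 κ1 a b
      = (Fintype.card W : ℝ) ^ 2 * ∑ x : TW q, ∑ y : TW q,
          tK (fun z => κ1 z + (κ0 z - κ1 z) * dens A univ) x y := by
  have hN : (0:ℝ) < (Fintype.card W : ℝ) := by exact_mod_cast Fintype.card_pos
  have hS : ∑ a0 : W, ∑ b0 : W, A a0 b0 = dens A univ * (Fintype.card W : ℝ) ^ 2 := by
    unfold dens
    rw [Finset.card_univ]
    field_simp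
  have step : ∀ x y : TW q, ∑ a0 : W, ∑ b0 : W, cmpK A κ0 κ1 (a0, x) (b0, y)
      = (Fintype.card W : ℝ) ^ 2 * tK (fun z => κ1 z + (κ0 z - κ1 z) * dens A univ) x y := by
    intro x y
    unfold cmpK tK
    simp only [Finset.sum_add_distrib, Finset.sum_const, Finset.card_univ, nsmul_eq_mul,
      ← Finset.mul_sum]
    rw [hS]
    ring
  simp only [Fintype.sum_prod_type]
  rw [Finset.sum_comm, Finset.mul_sum]
  apply Finset.sum_congr rfl
  intro x _
  rw [Finset.mul_sum]
  have : ∑ a0 : W, ∑ b0 : W, ∑ y : TW q, cmpK A κ0 κ1 (a0, x) (b0, y)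
      = ∑ y : TW q, ∑ a0 : W, ∑ b0 : W, cmpK A κ0 κ1 (a0, x) (b0, y) := by
    rw [Finset.sum_comm]
    have : ∀ a0 : W, ∑ b0 : W, ∑ y : TW q, cmpK A κ0 κ1 (a0, x) (b0, y)
        = ∑ y : TW q, ∑ b0 : W, cmpK A κ0 κ1 (a0, x) (b0, y) := fun a0 => Finset.sum_comm
    rw [Finset.sum_comm]
    simp only [this]
    rw [Finset.sum_comm]
  rw [this]
  apply Finset.sum_congr rfl
  intro y _
  exact step x y

end

theorem cmpK_hostOn.{u, v} {W : Type v} [Fintype W] [DecidableEq W] [Nonempty W] (n : ℕ)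
    (q : Fin n → ℕ) (A : W → W → ℝ) (hA : HostOn.{u} A univ) (hp : 0 ≤ dens A univ)
    (κ0 κ1 : (Fin n → ℕ) → ℝ) (h1 : ∀ z, 0 ≤ κ1 z) (h01 : ∀ z, κ1 z ≤ κ0 z)
    (hmono : Monotone (fun z => κ1 z + (κ0 z - κ1 z) * dens A univ)) :
    HostOn.{u} (cmpK (q := q) A κ0 κ1) univ := by
  intro V _ _ c E hE
  set p := dens A univ with hpdef
  set κp : (Fin n → ℕ) → ℝ := fun z => κ1 z + (κ0 z - κ1 z) * p with hκp
  have hκp0 : ∀ z, 0 ≤ κp z := fun z =>
    add_nonneg (h1 z) (mul_nonneg (sub_nonneg.mpr (h01 z)) hp)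
  have hT := tK_hostOn.{u} n q κp hκp0 hmono V c E hE
  simp only [wt_ind_univ] at hT ⊢
  have hN : (0:ℝ) < (Fintype.card W : ℝ) := by exact_mod_cast Fintype.card_pos
  have hM : (0:ℝ) < (Fintype.card (TW q) : ℝ) := by exact_mod_cast Fintype.card_pos
  have hdens : dens (cmpK (q := q) A κ0 κ1) univ = dens (tK (q := q) κp) univ := by
    unfold dens
    rw [sum_cmpK, Finset.card_univ, Finset.card_univ, Fintype.card_prod]
    push_cast
    field_simp
    rfl
  have hsplit : ∑ Φ : V → W × TW q, ∏ e ∈ E, cmpK A κ0 κ1 (Φ e.1) (Φ e.2)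
      = ∑ ψ : V → TW q, ∑ φ : V → W,
          ∏ e ∈ E, cmpK A κ0 κ1 (φ e.1, ψ e.1) (φ e.2, ψ e.2) := by
    rw [← Equiv.sum_comp (splitEquiv V W (TW q)).symm, Fintype.sum_prod_type, Finset.sum_comm]
    rfl
  have hfib : ∀ ψ : V → TW q,
      (Fintype.card W : ℝ) ^ Fintype.card V * ∏ e ∈ E, tK κp (ψ e.1) (ψ e.2)
        ≤ ∑ φ : V → W, ∏ e ∈ E, cmpK A κ0 κ1 (φ e.1, ψ e.1) (φ e.2, ψ e.2) := by
    intro ψ
    have := affine_host A E p
      (fun E' hE' => by
        have h := hA V c E' (fun e he => hE e (hE' he))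
        simp only [wt_ind_univ, Finset.card_univ] at h
        exact h)
      (fun e => κ1 (cvec (ψ e.2 - ψ e.1)))
      (fun e => κ0 (cvec (ψ e.2 - ψ e.1)) - κ1 (cvec (ψ e.2 - ψ e.1)))
      (fun e => h1 _) (fun e => sub_nonneg.mpr (h01 _))
    exact this
  rw [hsplit, hdens, Finset.card_univ, Fintype.card_prod]
  rw [Finset.card_univ] at hT
  push_cast
  calc dens (tK κp) univ ^ E.card * ((Fintype.card W : ℝ) * (Fintype.card (TW q) : ℝ)) ^ Fintype.card V
      = (Fintype.card W : ℝ) ^ Fintype.card V *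
          (dens (tK κp) univ ^ E.card * (Fintype.card (TW q) : ℝ) ^ Fintype.card V) := by
        rw [mul_pow]; ring
    _ ≤ (Fintype.card W : ℝ) ^ Fintype.card V * ∑ ψ : V → TW q, ∏ e ∈ E, tK κp (ψ e.1) (ψ e.2) :=
        mul_le_mul_of_nonneg_left hT (by positivity)
    _ = ∑ ψ : V → TW q, (Fintype.card W : ℝ) ^ Fintype.card V * ∏ e ∈ E, tK κp (ψ e.1) (ψ e.2) :=
        Finset.mul_sum _ _ _
    _ ≤ _ := Finset.sum_le_sum (fun ψ _ => hfib ψ)

theorem compGraph_hostOn.{u, v} {W : Type v} [Fintype W] [DecidableEq W] [Nonempty W]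
    (G : SimpleGraph W) (hG : HostOn.{u} (adjInd G) univ) (n : ℕ) (q : Fin n → ℕ)
    (U0 U1 : Set (Fin n → ℕ)) (hU0 : IsUpperSet U0) (hU1 : IsUpperSet U1) (h10 : U1 ⊆ U0)
    (hz : (0 : Fin n → ℕ) ∉ U1) : HostOn.{u} (adjInd (compGraph G n q U0 U1)) univ := by
  classical
  set κ0 : (Fin n → ℕ) → ℝ := fun z => if z ∈ U0 then 1 else 0 with hκ0
  set κ1 : (Fin n → ℕ) → ℝ := fun z => if z ∈ U1 then 1 else 0 with hκ1
  have hN : (0:ℝ) < (Fintype.card W : ℝ) := by exact_mod_cast Fintype.card_pos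
  have hp0 : 0 ≤ dens (adjInd G) univ := dens_nonneg _ (adjInd_nonneg G) _
  have hp1 : dens (adjInd G) univ ≤ 1 := by
    unfold dens
    rw [Finset.card_univ, div_le_one (by positivity)]
    calc ∑ x : W, ∑ y : W, adjInd G x y ≤ ∑ x : W, ∑ y : W, (1:ℝ) := by
          apply Finset.sum_le_sum; intro x _
          apply Finset.sum_le_sum; intro y _
          unfold adjInd; split_ifs <;> norm_num
      _ = (Fintype.card W : ℝ) ^ 2 := by simp [sq]
  have h := cmpK_hostOn.{u} n q (adjInd G) hG hp0 κ0 κ1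
    (fun z => by simp only [hκ1]; split_ifs <;> norm_num)
    (fun z => by
      simp only [hκ0, hκ1]
      by_cases h1 : z ∈ U1
      · rw [if_pos h1, if_pos (h10 h1)]
      · rw [if_neg h1]; split_ifs <;> norm_num)
    (by
      intro z z' hzz
      simp only [hκ0, hκ1]
      by_cases h1 : z ∈ U1
      · have h1' := hU1 hzz h1
        rw [if_pos h1, if_pos h1', if_pos (h10 h1), if_pos (h10 h1')]
      · rw [if_neg h1]
        by_cases h0 : z ∈ U0
        · have h0' := hU0 hzz h0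
          rw [if_pos h0, if_pos h0']
          by_cases h1' : z' ∈ U1
          · rw [if_pos h1']; linarith
          · rw [if_neg h1']
        · rw [if_neg h0]
          by_cases h1' : z' ∈ U1
          · rw [if_pos h1', if_pos (h10 h1')]; linarith
          · rw [if_neg h1']
            by_cases h0' : z' ∈ U0
            · rw [if_pos h0']; linarith
            · rw [if_neg h0'])
  have e : cmpK (q := q) (adjInd G) κ0 κ1 = adjInd (compGraph G n q U0 U1) := by
    funext a b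
    have hadj : (compGraph G n q U0 U1).Adj a b ↔
        (a ≠ b ∧ (cvec (b.2 - a.2) ∈ U1 ∨ (cvec (b.2 - a.2) ∈ U0 ∧ G.Adj a.1 b.1))) := Iff.rfl
    unfold cmpK
    simp only [hκ0, hκ1]
    by_cases h1 : cvec (b.2 - a.2) ∈ U1
    · have hne : a ≠ b := by
        intro hab
        apply hz
        rw [hab, sub_self] at h1
        have : cvec (0 : TW q) = 0 := by
          funext j; simp [cvec, circ]
        rwa [this] at h1
      have : (compGraph G n q U0 U1).Adj a b := hadj.mpr ⟨hne, Or.inl h1⟩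
      rw [if_pos h1, if_pos (h10 h1)]
      unfold adjInd
      rw [if_pos this]
      ring
    · rw [if_neg h1]
      by_cases h0 : cvec (b.2 - a.2) ∈ U0
      · rw [if_pos h0]
        unfold adjInd
        by_cases hg : G.Adj a.1 b.1
        · have hne : a ≠ b := by
            intro hab
            rw [hab] at hg
            exact G.loopless.irrefl _ hg
          rw [if_pos hg, if_pos (hadj.mpr ⟨hne, Or.inr ⟨h0, hg⟩⟩)]
          ring
        · have hn : ¬ (compGraph G n q U0 U1).Adj a b := by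
            intro h'
            rcases (hadj.mp h').2 with h2 | h2
            · exact h1 h2
            · exact hg h2.2
          rw [if_neg hg, if_neg hn]
          ring
      · rw [if_neg h0]
        have hn : ¬ (compGraph G n q U0 U1).Adj a b := by
          intro h'
          rcases (hadj.mp h').2 with h2 | h2
          · exact h1 h2
          · exact h0 h2.1
        unfold adjInd
        rw [if_neg hn]
        ring
  rw [e] at h
  exact h

theorem compGraph_sidorenkoHost.{u, v} {W : Type v} [Fintype W] [Nonempty W]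
    (G : SimpleGraph W) (hG : SidorenkoHost.{u} G) (n : ℕ) (q : Fin n → ℕ)
    (U0 U1 : Set (Fin n → ℕ)) (hU0 : IsUpperSet U0) (hU1 : IsUpperSet U1) (h10 : U1 ⊆ U0)
    (hz : (0 : Fin n → ℕ) ∉ U1) : SidorenkoHost.{u} (compGraph G n q U0 U1) := by
  classical
  exact sidorenkoHost_of_hostOn _
    (compGraph_hostOn.{u} G (hostOn_of_sidorenkoHost G hG) n q U0 U1 hU0 hU1 h10 hz)

end Vale.Agent.P050
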