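import Mathlib

namespace Vale.Agent.P050

/-- the Cayley graph of `(Z/2)^n` with connection set `S`: the vertices are the subsets of `Fin n`
(0/1 vectors of length `n`), and two distinct vertices are adjacent when the set of coordinates in which
they differ (their symmetric difference) belongs to `S` -/
def cubeCayley (n : ℕ) (S : Set (Finset (Fin n))) : SimpleGraph (Finset (Fin n)) where
  Adj x y := x ≠ y ∧ symmDiff x y ∈ S
  symm := ⟨fun x y h => ⟨h.1.symm, by rw [symmDiff_comm]; exact h.2⟩⟩
  loopless := ⟨fun x h => h.1 rfl⟩

end Vale.Agent.P050
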