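import Mathlib
import Vale.Agent.P050.Transfer
import Vale.Agent.P050.CubeDef

open Finset

set_option linter.unusedSectionVars false

namespace Vale.Agent.P050

section cube

variable {k : ℕ}
variable {V : Type*} [Fintype V] [DecidableEq V]

/-- translation invariant kernel on the cube -/
def cK (κ : Finset (Fin k) → ℝ) (x y : Finset (Fin k)) : ℝ := κ (symmDiff x y)

/-- spin of a subset with respect to the coordinate `i` -/
def sgnI (i : Fin k) (x : Finset (Fin k)) : ℝ := if i ∈ x then 1 else -1

/-- standing hypotheses -/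
structure CubeData (m : V → Finset (Fin k) → ℝ) (κ : Finset (Fin k) → ℝ) : Prop where
  hm : ∀ v x, m v x = 1
  hκ : ∀ z, 0 ≤ κ z
  hmono : Monotone κ

variable {m : V → Finset (Fin k) → ℝ} {κ : Finset (Fin k) → ℝ}

lemma mem_tog (i a : Fin k) (x : Finset (Fin k)) :
    a ∈ symmDiff x {i} ↔ (a ∈ x ∧ a ≠ i) ∨ (a = i ∧ a ∉ x) := by
  simp [Finset.mem_symmDiff]

lemma tog_eq_insert (i : Fin k) (z : Finset (Fin k)) (hi : i ∉ z) : symmDiff z {i} = insert i z := by
  ext a
  rw [mem_tog, Finset.mem_insert]
  constructor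
  · rintro (⟨h, _⟩ | ⟨h, _⟩)
    · exact Or.inr h
    · exact Or.inl h
  · rintro (h | h)
    · exact Or.inr ⟨h, by rw [h]; exact hi⟩
    · exact Or.inl ⟨h, fun hai => hi (hai ▸ h)⟩

lemma CubeData.kempeData (D : CubeData m κ) (i : Fin k) :
    KempeData m (cK κ) (fun x => symmDiff x {i}) (sgnI i) where
  hm := fun v x => by rw [D.hm]; norm_num
  hK := fun x y => D.hκ _
  hτ := fun x => symmDiff_symmDiff_cancel_right _ _
  hs1 := by
    intro x
    unfold sgnI
    split_ifs <;> simp
  hsτ := by
    intro x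
    unfold sgnI
    by_cases h : i ∈ x <;> simp [mem_tog, h]
  hs0 := by
    intro x hx
    unfold sgnI at hx
    split_ifs at hx <;> norm_num at hx
  hmτ := fun v x => by rw [D.hm, D.hm]
  hKτ := by
    intro x y
    unfold cK
    rw [symmDiff_symmDiff_symmDiff_comm, symmDiff_self, symmDiff_bot]
  hAF := by
    intro x y hxy _
    unfold cK
    apply D.hmono
    have hi : i ∉ symmDiff x y := by
      unfold sgnI at hxy
      rw [Finset.mem_symmDiff]
      by_cases h1 : i ∈ x <;> by_cases h2 : i ∈ y <;> simp [h1, h2] at hxy ⊢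
      · norm_num at hxy
      · norm_num at hxy
    rw [← symmDiff_assoc, tog_eq_insert i _ hi]
    exact Finset.subset_insert _ _

lemma CubeData.wt_translate (D : CubeData m κ) (E : Finset (V × V)) (a : Finset (Fin k))
    (φ : V → Finset (Fin k)) :
    wt m (cK κ) E (fun w => symmDiff (φ w) a) = wt m (cK κ) E φ := by
  unfold wt
  congr 1
  · apply Finset.prod_congr rfl
    intro v _
    rw [D.hm, D.hm]
  · apply Finset.prod_congr rfl
    intro e _
    unfold cK
    rw [symmDiff_symmDiff_symmDiff_comm, symmDiff_self, symmDiff_bot]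

lemma CubeData.twoPt_translate (D : CubeData m κ) (E : Finset (V × V)) (u v : V)
    (a x y : Finset (Fin k)) :
    twoPt m (cK κ) E u v (symmDiff x a) (symmDiff y a) = twoPt m (cK κ) E u v x y := by
  unfold twoPt
  have hinv : Function.Involutive
      (fun φ : V → Finset (Fin k) => fun w => symmDiff (φ w) a) := by
    intro φ
    funext w
    exact symmDiff_symmDiff_cancel_right _ _
  have := Equiv.sum_comp (hinv.toPerm _)
    (fun φ : V → Finset (Fin k) =>
      if φ u = symmDiff x a ∧ φ v = symmDiff y a then wt m (cK κ) E φ else 0)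
  rw [← this]
  apply Finset.sum_congr rfl
  intro φ _
  simp only [Function.Involutive.coe_toPerm]
  rw [D.wt_translate]
  simp only [symmDiff_left_inj]

/-- the two point function as a function of the difference -/
def gT (m : V → Finset (Fin k) → ℝ) (κ : Finset (Fin k) → ℝ) (E : Finset (V × V)) (u v : V)
    (z : Finset (Fin k)) : ℝ :=
  twoPt m (cK κ) E u v univ (symmDiff univ z)

lemma CubeData.twoPt_eq_gT (D : CubeData m κ) (E : Finset (V × V)) (u v : V)
    (x y : Finset (Fin k)) : twoPt m (cK κ) E u v x y = gT m κ E u v (symmDiff x y) := by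
  unfold gT
  rw [← D.twoPt_translate E u v (symmDiff x univ) x y, symmDiff_symmDiff_cancel_left]
  congr 1
  rw [← symmDiff_assoc, symmDiff_comm (symmDiff y x), symmDiff_comm y x]

lemma CubeData.gT_nonneg (D : CubeData m κ) (E : Finset (V × V)) (u v : V)
    (z : Finset (Fin k)) : 0 ≤ gT m κ E u v z := by
  unfold gT twoPt
  apply Finset.sum_nonneg
  intro φ _
  split_ifs
  · unfold wt
    exact mul_nonneg (Finset.prod_nonneg fun v _ => by rw [D.hm]; norm_num)
      (Finset.prod_nonneg fun e _ => D.hκ _)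
  · exact le_refl _

lemma mono_of_insert (g : Finset (Fin k) → ℝ) (h : ∀ z i, i ∉ z → g z ≤ g (insert i z)) :
    Monotone g := by
  intro z z' hzz
  have key : ∀ t : Finset (Fin k), g z ≤ g (z ∪ t) := by
    intro t
    induction t using Finset.induction_on with
    | empty => simp
    | insert i t hi ih =>
      by_cases hiz : i ∈ z ∪ t
      · have : z ∪ insert i t = z ∪ t := by
          rw [Finset.union_insert, Finset.insert_eq_of_mem hiz]
        rw [this]; exact ih
      · rw [Finset.union_insert]; exact ih.trans (h _ _ hiz)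
  have := key z'
  rwa [Finset.union_eq_right.mpr hzz] at this

lemma CubeData.gT_mono (D : CubeData m κ) (c : V → Bool) (E : Finset (V × V))
    (hE : ∀ e ∈ E, c e.1 = false ∧ c e.2 = true) (u v : V) (hu : c u = false) (hv : c v = true) :
    Monotone (gT m κ E u v) := by
  apply mono_of_insert
  intro z i hi
  unfold gT
  have h := (D.kempeData i).kempe c E hE u v hu hv univ (symmDiff univ z)
    (by simp [sgnI]) (by simp [sgnI, Finset.mem_symmDiff, hi])
  rw [symmDiff_assoc, tog_eq_insert i z hi] at h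
  exact h

lemma sum_pair_symmDiff (F : Finset (Fin k) → ℝ) :
    ∑ p : Finset (Fin k) × Finset (Fin k), F (symmDiff p.1 p.2)
      = (Fintype.card (Finset (Fin k)) : ℝ) * ∑ z, F z := by
  rw [Fintype.sum_prod_type]
  have : ∀ x : Finset (Fin k), ∑ y, F (symmDiff x y) = ∑ z, F z := by
    intro x
    exact Equiv.sum_comp ((symmDiff_right_involutive x).toPerm _) F
  simp only [this]
  simp

/-- mean value of `κ` -/
noncomputable def cmean (κ : Finset (Fin k) → ℝ) : ℝ :=
  (∑ z, κ z) / (Fintype.card (Finset (Fin k)) : ℝ)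

lemma CubeData.step_ineq (D : CubeData m κ) (c : V → Bool) (E : Finset (V × V))
    (hE : ∀ e ∈ E, c e.1 = false ∧ c e.2 = true) (u v : V) (hu : c u = false) (hv : c v = true)
    (he : (u, v) ∉ E) :
    cmean κ * Zf m (cK κ) E ≤ Zf m (cK κ) (insert (u, v) E) := by
  have e1 : Zf m (cK κ) E
      = (Fintype.card (Finset (Fin k)) : ℝ) * ∑ z, gT m κ E u v z := by
    rw [Zf_eq_sum_twoPt E u v, ← sum_pair_symmDiff]
    apply Finset.sum_congr rfl
    intro p _
    exact D.twoPt_eq_gT E u v p.1 p.2
  have e2 : Zf m (cK κ) (insert (u, v) E)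
      = (Fintype.card (Finset (Fin k)) : ℝ) * ∑ z, gT m κ E u v z * κ z := by
    rw [Zf_insert E u v he, ← sum_pair_symmDiff (fun z => gT m κ E u v z * κ z)]
    apply Finset.sum_congr rfl
    intro p _
    rw [D.twoPt_eq_gT E u v p.1 p.2]
    rfl
  have hf := fkg (μ := fun _ : Finset (Fin k) => (1:ℝ)) (f := gT m κ E u v) (g := κ)
    (fun _ => zero_le_one) (fun z => D.gT_nonneg E u v z) (fun z => D.hκ z)
    (D.gT_mono c E hE u v hu hv) D.hmono (fun _ _ => le_refl _)
  simp only [one_mul, Finset.sum_const, Finset.card_univ, nsmul_eq_mul, mul_one] at hf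
  have hpos : (0:ℝ) < (Fintype.card (Finset (Fin k)) : ℝ) := by
    exact_mod_cast Fintype.card_pos
  rw [e1, e2]
  unfold cmean
  rw [div_mul_eq_mul_div, div_le_iff₀ hpos]
  nlinarith [hf]

lemma CubeData.cmean_nonneg (D : CubeData m κ) : 0 ≤ cmean κ := by
  unfold cmean
  exact div_nonneg (Finset.sum_nonneg fun z _ => D.hκ z) (Nat.cast_nonneg _)

theorem CubeData.main (D : CubeData m κ) (c : V → Bool) (E : Finset (V × V)) :
    (∀ e ∈ E, c e.1 = false ∧ c e.2 = true) →
    cmean κ ^ E.card * Zf m (cK κ) ∅ ≤ Zf m (cK κ) E := by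
  induction E using Finset.induction_on with
  | empty => intro _; simp
  | insert e E he ih =>
    intro hE
    have hE' : ∀ e ∈ E, c e.1 = false ∧ c e.2 = true :=
      fun e' h' => hE e' (Finset.mem_insert_of_mem h')
    have ih' := ih hE'
    obtain ⟨hu, hv⟩ := hE e (Finset.mem_insert_self _ _)
    have st := D.step_ineq c E hE' e.1 e.2 hu hv he
    rw [Finset.card_insert_of_notMem he, pow_succ]
    have k0 := D.cmean_nonneg
    calc cmean κ ^ E.card * cmean κ * Zf m (cK κ) ∅
        = cmean κ * (cmean κ ^ E.card * Zf m (cK κ) ∅) := by ring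
      _ ≤ cmean κ * Zf m (cK κ) E := mul_le_mul_of_nonneg_left ih' k0
      _ ≤ Zf m (cK κ) (insert e E) := st

end cube

theorem cK_hostOn.{u} (n : ℕ) (κ : Finset (Fin n) → ℝ) (hκ : ∀ z, 0 ≤ κ z) (hmono : Monotone κ) :
    HostOn.{u} (cK κ) (univ : Finset (Finset (Fin n))) := by
  intro V _ _ c E hE
  have D : CubeData (V := V) (fun _ => ind (univ : Finset (Finset (Fin n)))) κ :=
    { hm := fun _ x => by simp [ind]
      hκ := hκ
      hmono := hmono }
  have main := D.main c E hE
  rw [Zf_empty] at main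
  simp only [sum_ind, Finset.prod_const, Finset.card_univ] at main
  have hk : cmean κ = dens (cK κ) (univ : Finset (Finset (Fin n))) := by
    unfold cmean dens
    have h1 : ∑ x : Finset (Fin n), ∑ y : Finset (Fin n), cK κ x y
        = (Fintype.card (Finset (Fin n)) : ℝ) * ∑ z, κ z := by
      rw [← sum_pair_symmDiff κ, Fintype.sum_prod_type]
      rfl
    rw [h1, Finset.card_univ]
    have hpos : (0:ℝ) < (Fintype.card (Finset (Fin n)) : ℝ) := by
      exact_mod_cast Fintype.card_pos
    field_simp
  rw [hk] at main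
  rw [Finset.card_univ]
  exact main

theorem cubeCayley_hostOn.{u} (n : ℕ) (S : Set (Finset (Fin n))) (hS : IsUpperSet S) :
    HostOn.{u} (adjInd (cubeCayley n S)) univ := by
  classical
  set κ : Finset (Fin n) → ℝ := fun z => if z ≠ ∅ ∧ z ∈ S then 1 else 0 with hκdef
  have hκ : ∀ z, 0 ≤ κ z := by
    intro z
    simp only [hκdef]
    split_ifs <;> norm_num
  have hmono : Monotone κ := by
    intro z z' hzz
    simp only [hκdef]
    by_cases h : z ≠ ∅ ∧ z ∈ S
    · have h' : z' ≠ ∅ ∧ z' ∈ S := by
        refine ⟨?_, hS hzz h.2⟩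
        intro h0
        apply h.1
        rw [h0] at hzz
        exact Finset.subset_empty.mp hzz
      rw [if_pos h, if_pos h']
    · rw [if_neg h]
      split_ifs <;> norm_num
  have h := cK_hostOn.{u} n κ hκ hmono
  have e : cK κ = adjInd (cubeCayley n S) := by
    funext x y
    unfold cK adjInd cubeCayley
    simp only [hκdef]
    have hne : symmDiff x y ≠ ∅ ↔ x ≠ y := by
      rw [Ne, Ne, ← Finset.bot_eq_empty, symmDiff_eq_bot]
    simp only [hne]
    by_cases hc : x ≠ y ∧ symmDiff x y ∈ S
    · rw [if_pos hc, if_pos hc]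
    · rw [if_neg hc, if_neg hc]
  rw [e] at h
  exact h

theorem cubeCayley_sidorenkoHost.{u} (n : ℕ) (S : Set (Finset (Fin n))) (hS : IsUpperSet S) :
    SidorenkoHost.{u} (cubeCayley n S) :=
  sidorenkoHost_of_hostOn _ (cubeCayley_hostOn.{u} n S hS)

end Vale.Agent.P050
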