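import Mathlib

namespace Vale.Agent.P050

/-- generalised Kneser graph `K(n,k,s)`: the vertices are the `k`-element subsets of `Fin n`, and two
distinct subsets are adjacent when they have at most `s` common elements
(`s = 0` is the Kneser graph, `K(5,2,0)` is the Petersen graph) -/
def genKneser (n k s : ℕ) : SimpleGraph {x : Finset (Fin n) // x.card = k} where
  Adj x y := x ≠ y ∧ (x.1 ∩ y.1).card ≤ s
  symm := ⟨fun x y h => ⟨h.1.symm, by rw [Finset.inter_comm]; exact h.2⟩⟩
  loopless := ⟨fun x h => h.1 rfl⟩

end Vale.Agent.P050
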