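import Mathlib
import Vale.Agent.P050.Transfer
import Vale.Agent.P050.KneserDef

open Finset

set_option linter.unusedSectionVars false

namespace Vale.Agent.P050

/-- the kernel of the generalised Kneser graph on all subsets -/
def knK (n k s : ℕ) (x y : Finset (Fin n)) : ℝ :=
  if (x ∩ y).card ≤ s ∧ (x ∩ y).card < k then 1 else 0

lemma knK_nonneg (n k s : ℕ) (x y : Finset (Fin n)) : 0 ≤ knK n k s x y := by
  unfold knK; split_ifs <;> norm_num

lemma knK_swapMono (n k s : ℕ) : SwapMono (knK n k s) where
  inv := by
    intro σ x y
    unfold knK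
    rw [act_inter, card_act]
  step := by
    intro i j x y hix hiy hjx hjy
    unfold knK
    rw [inter_act_swap i j x y hix hiy hjx hjy,
      Finset.card_erase_of_mem (Finset.mem_inter.mpr ⟨hix, hiy⟩)]
    by_cases h : (x ∩ y).card ≤ s ∧ (x ∩ y).card < k
    · rw [if_pos h, if_pos ⟨by omega, by omega⟩]
    · rw [if_neg h]
      split_ifs <;> norm_num

theorem knK_hostOn.{u} (n k s : ℕ) :
    HostOn.{u} (knK n k s) (Finset.powersetCard k (univ : Finset (Fin n))) := by
  intro V _ _ c E hE
  set S := Finset.powersetCard k (univ : Finset (Fin n)) with hS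
  have D : SliceData (V := V) (fun _ => ind S) (knK n k s) :=
    { hm := fun _ x => ind_nonneg S x
      hmc := by
        intro _ x y hxy
        unfold ind
        simp only [hS, Finset.mem_powersetCard, Finset.subset_univ, true_and, hxy]
      hK := knK_nonneg n k s
      hKmono := knK_swapMono n k s }
  have hz : ∀ x : Finset (Fin n), x.card ≠ k → ind S x = 0 := by
    intro x hx
    unfold ind
    rw [if_neg]
    simp only [hS, Finset.mem_powersetCard, Finset.subset_univ, true_and]
    exact hx
  have main := D.main c k k E hE (fun e _ => ⟨hz, hz⟩)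
  rw [Zf_empty] at main
  simp only [sum_ind, Finset.prod_const, Finset.card_univ] at main
  have hk : kmean (knK n k s) k k = dens (knK n k s) S := by
    unfold kmean dens slicePairs
    rw [← hS, Finset.sum_product, Finset.card_product]
    push_cast
    rw [sq]
  rw [hk] at main
  exact main

theorem genKneser_hostOn.{u} (n k s : ℕ) : HostOn.{u} (adjInd (genKneser n k s)) univ := by
  classical
  have h := knK_hostOn.{u} n k s
  set ι : {x : Finset (Fin n) // x.card = k} ↪ Finset (Fin n) := Function.Embedding.subtype _
    with hι
  have hmap : (univ : Finset {x : Finset (Fin n) // x.card = k}).map ι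
      = Finset.powersetCard k (univ : Finset (Fin n)) := by
    ext x
    simp only [Finset.mem_map, Finset.mem_univ, true_and, Finset.mem_powersetCard,
      Finset.subset_univ, hι, Function.Embedding.coe_subtype, Subtype.exists, exists_prop,
      exists_eq_right]
  rw [← hmap, hostOn_map_iff] at h
  have e : (fun x y => knK n k s (ι x) (ι y)) = adjInd (genKneser n k s) := by
    funext x y
    unfold knK adjInd genKneser
    simp only [hι, Function.Embedding.coe_subtype]
    have hne : x ≠ y ↔ (x.1 ∩ y.1).card < k := by
      constructor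
      · intro hxy
        by_contra hcon
        push Not at hcon
        apply hxy
        have h1 : x.1 ∩ y.1 = x.1 :=
          Finset.eq_of_subset_of_card_le Finset.inter_subset_left (by rw [x.2]; exact hcon)
        have h2 : x.1 ∩ y.1 = y.1 :=
          Finset.eq_of_subset_of_card_le Finset.inter_subset_right (by rw [y.2]; exact hcon)
        exact Subtype.ext (h1.symm.trans h2)
      · intro hlt hxy
        rw [hxy, Finset.inter_self, y.2] at hlt
        exact lt_irrefl _ hlt
    by_cases h1 : (x.1 ∩ y.1).card ≤ s ∧ (x.1 ∩ y.1).card < k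
    · rw [if_pos h1, if_pos ⟨hne.mpr h1.2, h1.1⟩]
    · rw [if_neg h1, if_neg]
      rintro ⟨h2, h3⟩
      exact h1 ⟨h3, hne.mp h2⟩
  rw [e] at h
  exact h

theorem genKneser_sidorenko.{u} (n k s : ℕ) (hk : k ≤ n) {V : Type u} [Fintype V]
    (H : SimpleGraph V) (hH : H.IsBipartite) :
    edgeDensity (genKneser n k s) ^ Nat.card H.edgeSet ≤ homDensity H (genKneser n k s) := by
  classical
  haveI : Nonempty {x : Finset (Fin n) // x.card = k} := by
    obtain ⟨t, _, ht⟩ := Finset.exists_subset_card_eq (s := (univ : Finset (Fin n))) (n := k)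
      (by simpa using hk)
    exact ⟨⟨t, ht⟩⟩
  exact sidorenko_of_hostOn _ (genKneser_hostOn.{u} n k s) H hH

end Vale.Agent.P050
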