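import Mathlib
import Vale.Agent.P050.Circ

open Finset

namespace Vale.Agent.P050

section

variable (k : ℕ)

/-- the residue `k + 1` modulo `2 k + 3` -/
def uu : Fin (2 * k + 2 + 1) := ⟨k + 1, by omega⟩

/-- the residue `2 k + 1 = -2` modulo `2 k + 3` -/
def vv : Fin (2 * k + 2 + 1) := ⟨2 * k + 1, by omega⟩

lemma uu_mul : uu k * vv k = 1 := by
  apply Fin.ext
  rw [Fin.val_mul]
  have h1 : (uu k).val = k + 1 := rfl
  have h2 : (vv k).val = 2 * k + 1 := rfl
  have h3 : ((1 : Fin (2 * k + 2 + 1))).val = 1 := by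
    first
      | exact Fin.val_one (2 * k + 1)
      | simp
  rw [h1, h2, h3]
  have h4 : (k + 1) * (2 * k + 1) = 1 + (2 * k + 2 + 1) * k := by ring
  rw [h4, Nat.add_mul_mod_self_left, Nat.mod_eq_of_lt (by omega)]

lemma cancel_uu (d : Fin (2 * k + 2 + 1)) : vv k * (uu k * d) = d := by
  rw [← mul_assoc, mul_comm (vv k) (uu k), uu_mul, one_mul]

lemma circ_uu : circ (uu k) = k + 1 := by
  unfold circ uu
  simp only
  omega

lemma circ_uu_mul (d : Fin (2 * k + 2 + 1)) : k + 1 ≤ circ (uu k * d) ↔ (d = 1 ∨ d = -1) := by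
  constructor
  · intro h
    have hw := (uu k * d).isLt
    have hc : (uu k * d).val = k + 1 ∨ (uu k * d).val = k + 2 := by
      unfold circ at h
      omega
    rcases hc with hc | hc
    · left
      have e : uu k * d = uu k := Fin.ext hc
      have := cancel_uu k d
      rw [e, mul_comm (vv k) (uu k), uu_mul] at this
      exact this.symm
    · right
      have e : uu k * d = - uu k := by
        apply Fin.ext
        rw [hc, Fin.coe_neg]
        have : (uu k).val = k + 1 := rfl
        rw [this, Nat.mod_eq_of_lt (by omega)]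
        omega
      have := cancel_uu k d
      rw [e, mul_neg, mul_comm (vv k) (uu k), uu_mul] at this
      exact this.symm
  · rintro (h | h)
    · rw [h, mul_one, circ_uu]
    · rw [h, mul_neg, mul_one, circ_neg, circ_uu]

/-- multiplication by `k + 1` -/
def eqv : Fin (2 * k + 2 + 1) ≃ TW (fun _ : Fin 1 => 2 * k + 2) where
  toFun x := fun _ => uu k * x
  invFun z := vv k * z 0
  left_inv x := cancel_uu k x
  right_inv z := by
    funext i
    have hi : i = 0 := Subsingleton.elim _ _
    subst hi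
    show uu k * (vv k * z 0) = z 0
    rw [← mul_assoc, uu_mul, one_mul]

theorem oddCycle_hostOn.{u} :
    HostOn.{u} (adjInd (SimpleGraph.cycleGraph (2 * k + 2 + 1))) univ := by
  classical
  set U : Set (Fin 1 → ℕ) := {v | k + 1 ≤ v 0} with hU
  have hUp : IsUpperSet U := by
    intro a b hab ha
    exact le_trans ha (hab 0)
  have h := torusGraph_hostOn.{u} 1 (fun _ => 2 * k + 2) U hUp
  rw [← Finset.map_univ_equiv (eqv k), hostOn_map_iff] at h
  have e : (fun x y => adjInd (torusGraph 1 (fun _ => 2 * k + 2) U) ((eqv k).toEmbedding x)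
      ((eqv k).toEmbedding y)) = adjInd (SimpleGraph.cycleGraph (2 * k + 2 + 1)) := by
    funext x y
    unfold adjInd
    have hiff : (torusGraph 1 (fun _ => 2 * k + 2) U).Adj ((eqv k).toEmbedding x)
        ((eqv k).toEmbedding y) ↔ (SimpleGraph.cycleGraph (2 * k + 2 + 1)).Adj x y := by
      rw [SimpleGraph.cycleGraph_eq_circulantGraph, SimpleGraph.circulantGraph_adj]
      simp only [Set.mem_singleton_iff]
      have h1 : (torusGraph 1 (fun _ => 2 * k + 2) U).Adj ((eqv k).toEmbedding x)
          ((eqv k).toEmbedding y) ↔ (eqv k x ≠ eqv k y ∧ k + 1 ≤ circ (uu k * y - uu k * x)) :=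
        Iff.rfl
      rw [h1, (eqv k).injective.ne_iff, ← mul_sub, circ_uu_mul]
      constructor
      · rintro ⟨hne, h2 | h2⟩
        · exact ⟨hne, Or.inr h2⟩
        · refine ⟨hne, Or.inl ?_⟩
          rw [← neg_sub, h2, neg_neg]
      · rintro ⟨hne, h2 | h2⟩
        · refine ⟨hne, Or.inr ?_⟩
          rw [← neg_sub, h2]
        · exact ⟨hne, Or.inl h2⟩
    by_cases hc : (SimpleGraph.cycleGraph (2 * k + 2 + 1)).Adj x y
    · rw [if_pos hc, if_pos (hiff.mpr hc)]
    · rw [if_neg hc, if_neg (fun h' => hc (hiff.mp h'))]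
  rw [e] at h
  exact h

theorem oddCycle_sidorenkoHost.{u} :
    SidorenkoHost.{u} (SimpleGraph.cycleGraph (2 * k + 2 + 1)) :=
  sidorenkoHost_of_hostOn _ (oddCycle_hostOn.{u} k)

end

end Vale.Agent.P050
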