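import Mathlib

namespace Vale.Agent.P050

/-- tensor (categorical) product: `(a, x) ~ (b, y)` iff `a ~ b` in `G1` and `x ~ y` in `G2` -/
def tensorProd {W1 W2 : Type*} (G1 : SimpleGraph W1) (G2 : SimpleGraph W2) :
    SimpleGraph (W1 × W2) where
  Adj a b := G1.Adj a.1 b.1 ∧ G2.Adj a.2 b.2
  symm := ⟨fun _ _ h => ⟨h.1.symm, h.2.symm⟩⟩
  loopless := ⟨fun a h => G1.loopless.irrefl _ h.1⟩

/-- disjunctive (co-normal) product: `(a, x) ~ (b, y)` iff `a ~ b` in `G1` or `x ~ y` in `G2` -/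
def disjProd {W1 W2 : Type*} (G1 : SimpleGraph W1) (G2 : SimpleGraph W2) :
    SimpleGraph (W1 × W2) where
  Adj a b := G1.Adj a.1 b.1 ∨ G2.Adj a.2 b.2
  symm := ⟨fun _ _ h => h.elim (fun h1 => Or.inl h1.symm) (fun h2 => Or.inr h2.symm)⟩
  loopless := ⟨fun a h => h.elim (fun h1 => G1.loopless.irrefl _ h1)
    (fun h2 => G2.loopless.irrefl _ h2)⟩

end Vale.Agent.P050
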