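import Mathlib
import Vale.Agent.P050.Comp
import Vale.Agent.P050.ProdDef

open Finset

set_option linter.unusedSectionVars false

namespace Vale.Agent.P050

section

variable {W1 W2 : Type*} [Fintype W1] [DecidableEq W1] [Fintype W2] [DecidableEq W2]

/-- bilinear combination of two kernels -/
def biK (A1 : W1 → W1 → ℝ) (A2 : W2 → W2 → ℝ) (k00 k10 k01 k11 : ℝ) (a b : W1 × W2) : ℝ :=
  (k00 + k01 * A2 a.2 b.2) + (k10 + k11 * A2 a.2 b.2) * A1 a.1 b.1

lemma sum_pair_reorder (F : W1 × W2 → W1 × W2 → ℝ) :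
    ∑ a : W1 × W2, ∑ b : W1 × W2, F a b
      = ∑ x : W2, ∑ y : W2, ∑ a0 : W1, ∑ b0 : W1, F (a0, x) (b0, y) := by
  simp only [Fintype.sum_prod_type]
  rw [Finset.sum_comm]
  apply Finset.sum_congr rfl
  intro x _
  have : ∀ a0 : W1, ∑ b0 : W1, ∑ y : W2, F (a0, x) (b0, y)
      = ∑ y : W2, ∑ b0 : W1, F (a0, x) (b0, y) := fun a0 => Finset.sum_comm
  simp only [this]
  rw [Finset.sum_comm]

lemma dens_biK [Nonempty W1] [Nonempty W2] (A1 : W1 → W1 → ℝ) (A2 : W2 → W2 → ℝ)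
    (k00 k10 k01 k11 : ℝ) :
    dens (biK A1 A2 k00 k10 k01 k11) univ
      = (k00 + k10 * dens A1 univ) + (k01 + k11 * dens A1 univ) * dens A2 univ := by
  have hN1 : (0:ℝ) < (Fintype.card W1 : ℝ) := by exact_mod_cast Fintype.card_pos
  have hN2 : (0:ℝ) < (Fintype.card W2 : ℝ) := by exact_mod_cast Fintype.card_pos
  have hS1 : ∑ a0 : W1, ∑ b0 : W1, A1 a0 b0 = dens A1 univ * (Fintype.card W1 : ℝ) ^ 2 := by
    unfold dens
    rw [Finset.card_univ]
    field_simp
  have hS2 : ∑ a0 : W2, ∑ b0 : W2, A2 a0 b0 = dens A2 univ * (Fintype.card W2 : ℝ) ^ 2 := by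
    unfold dens
    rw [Finset.card_univ]
    field_simp
  have step : ∀ x y : W2, ∑ a0 : W1, ∑ b0 : W1, biK A1 A2 k00 k10 k01 k11 (a0, x) (b0, y)
      = (Fintype.card W1 : ℝ) ^ 2 * ((k00 + k10 * dens A1 univ)
          + (k01 + k11 * dens A1 univ) * A2 x y) := by
    intro x y
    unfold biK
    simp only [Finset.sum_add_distrib, Finset.sum_const, Finset.card_univ, nsmul_eq_mul,
      ← Finset.mul_sum]
    rw [hS1]
    ring
  have tot : ∑ a : W1 × W2, ∑ b : W1 × W2, biK A1 A2 k00 k10 k01 k11 a b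
      = (Fintype.card W1 : ℝ) ^ 2 * (Fintype.card W2 : ℝ) ^ 2 *
        ((k00 + k10 * dens A1 univ) + (k01 + k11 * dens A1 univ) * dens A2 univ) := by
    rw [sum_pair_reorder]
    simp only [step]
    simp only [← Finset.mul_sum, Finset.sum_add_distrib, Finset.sum_const, Finset.card_univ,
      nsmul_eq_mul]
    rw [hS2]
    ring
  conv_lhs => unfold dens
  rw [tot, Finset.card_univ, Fintype.card_prod]
  push_cast
  field_simp

end

theorem biK_hostOn.{u, v} {W1 W2 : Type v} [Fintype W1] [DecidableEq W1] [Nonempty W1]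
    [Fintype W2] [DecidableEq W2] [Nonempty W2] (A1 : W1 → W1 → ℝ) (A2 : W2 → W2 → ℝ)
    (h1 : HostOn.{u} A1 univ) (h2 : HostOn.{u} A2 univ) (k00 k10 k01 k11 : ℝ)
    (ha : ∀ x y, 0 ≤ k00 + k01 * A2 x y) (hb : ∀ x y, 0 ≤ k10 + k11 * A2 x y)
    (ha' : 0 ≤ k00 + k10 * dens A1 univ) (hb' : 0 ≤ k01 + k11 * dens A1 univ) :
    HostOn.{u} (biK A1 A2 k00 k10 k01 k11) univ := by
  intro V _ _ c E hE
  simp only [wt_ind_univ]
  set p1 := dens A1 univ with hp1
  set p2 := dens A2 univ with hp2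
  have hsplit : ∑ Φ : V → W1 × W2, ∏ e ∈ E, biK A1 A2 k00 k10 k01 k11 (Φ e.1) (Φ e.2)
      = ∑ ψ : V → W2, ∑ φ : V → W1,
          ∏ e ∈ E, biK A1 A2 k00 k10 k01 k11 (φ e.1, ψ e.1) (φ e.2, ψ e.2) := by
    rw [← Equiv.sum_comp (splitEquiv V W1 W2).symm, Fintype.sum_prod_type, Finset.sum_comm]
    rfl
  have hfib : ∀ ψ : V → W2,
      (Fintype.card W1 : ℝ) ^ Fintype.card V *
          ∏ e ∈ E, ((k00 + k10 * p1) + (k01 + k11 * p1) * A2 (ψ e.1) (ψ e.2))
        ≤ ∑ φ : V → W1, ∏ e ∈ E, biK A1 A2 k00 k10 k01 k11 (φ e.1, ψ e.1) (φ e.2, ψ e.2) := by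
    intro ψ
    have := affine_host A1 E p1
      (fun E' hE' => by
        have h := h1 V c E' (fun e he => hE e (hE' he))
        simp only [wt_ind_univ, Finset.card_univ] at h
        exact h)
      (fun e => k00 + k01 * A2 (ψ e.1) (ψ e.2))
      (fun e => k10 + k11 * A2 (ψ e.1) (ψ e.2))
      (fun e => ha _ _) (fun e => hb _ _)
    have e1 : ∏ e ∈ E, ((k00 + k10 * p1) + (k01 + k11 * p1) * A2 (ψ e.1) (ψ e.2))
        = ∏ e ∈ E, ((k00 + k01 * A2 (ψ e.1) (ψ e.2)) + (k10 + k11 * A2 (ψ e.1) (ψ e.2)) * p1) :=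
      Finset.prod_congr rfl (fun e _ => by ring)
    rw [e1]
    exact this
  have hsec := affine_host A2 E p2
      (fun E' hE' => by
        have h := h2 V c E' (fun e he => hE e (hE' he))
        simp only [wt_ind_univ, Finset.card_univ] at h
        exact h)
      (fun _ => k00 + k10 * p1) (fun _ => k01 + k11 * p1) (fun _ => ha') (fun _ => hb')
  rw [Finset.prod_const] at hsec
  rw [hsplit, dens_biK, Finset.card_univ, Fintype.card_prod]
  push_cast
  calc ((k00 + k10 * p1) + (k01 + k11 * p1) * p2) ^ E.card *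
        ((Fintype.card W1 : ℝ) * (Fintype.card W2 : ℝ)) ^ Fintype.card V
      = (Fintype.card W1 : ℝ) ^ Fintype.card V * ((Fintype.card W2 : ℝ) ^ Fintype.card V *
          ((k00 + k10 * p1) + (k01 + k11 * p1) * p2) ^ E.card) := by
        rw [mul_pow]; ring
    _ ≤ (Fintype.card W1 : ℝ) ^ Fintype.card V * ∑ ψ : V → W2,
          ∏ e ∈ E, ((k00 + k10 * p1) + (k01 + k11 * p1) * A2 (ψ e.1) (ψ e.2)) :=
        mul_le_mul_of_nonneg_left hsec (by positivity)
    _ = ∑ ψ : V → W2, (Fintype.card W1 : ℝ) ^ Fintype.card V *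
          ∏ e ∈ E, ((k00 + k10 * p1) + (k01 + k11 * p1) * A2 (ψ e.1) (ψ e.2)) :=
        Finset.mul_sum _ _ _
    _ ≤ _ := Finset.sum_le_sum (fun ψ _ => hfib ψ)

lemma dens_adjInd_le_one {W : Type*} [Fintype W] [DecidableEq W] [Nonempty W] (G : SimpleGraph W) :
    dens (adjInd G) univ ≤ 1 := by
  have hN : (0:ℝ) < (Fintype.card W : ℝ) := by exact_mod_cast Fintype.card_pos
  unfold dens
  rw [Finset.card_univ, div_le_one (by positivity)]
  calc ∑ x : W, ∑ y : W, adjInd G x y ≤ ∑ x : W, ∑ y : W, (1:ℝ) := by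
        apply Finset.sum_le_sum; intro x _
        apply Finset.sum_le_sum; intro y _
        unfold adjInd; split_ifs <;> norm_num
    _ = (Fintype.card W : ℝ) ^ 2 := by simp [sq]

theorem prod_sidorenkoHost.{u, v} {W1 W2 : Type v} [Fintype W1] [Nonempty W1] [Fintype W2]
    [Nonempty W2] (G1 : SimpleGraph W1) (G2 : SimpleGraph W2) (h1 : SidorenkoHost.{u} G1)
    (h2 : SidorenkoHost.{u} G2) :
    SidorenkoHost.{u} (tensorProd G1 G2) ∧ SidorenkoHost.{u} (disjProd G1 G2) := by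
  classical
  have H1 := hostOn_of_sidorenkoHost G1 h1
  have H2 := hostOn_of_sidorenkoHost G2 h2
  have p0 : 0 ≤ dens (adjInd G1) univ := dens_nonneg _ (adjInd_nonneg G1) _
  have p1 := dens_adjInd_le_one G1
  have a0 : ∀ x y, 0 ≤ adjInd G2 x y := adjInd_nonneg G2
  have a1 : ∀ x y, adjInd G2 x y ≤ 1 := by
    intro x y; unfold adjInd; split_ifs <;> norm_num
  constructor
  · apply sidorenkoHost_of_hostOn
    have h := biK_hostOn.{u} (adjInd G1) (adjInd G2) H1 H2 0 0 0 1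
      (fun x y => by simp) (fun x y => by simpa using a0 x y) (by simp) (by simpa using p0)
    have e : biK (adjInd G1) (adjInd G2) 0 0 0 1 = adjInd (tensorProd G1 G2) := by
      funext a b
      have hadj : (tensorProd G1 G2).Adj a b ↔ (G1.Adj a.1 b.1 ∧ G2.Adj a.2 b.2) := Iff.rfl
      unfold biK adjInd
      by_cases g1 : G1.Adj a.1 b.1 <;> by_cases g2 : G2.Adj a.2 b.2 <;> simp [hadj, g1, g2]
    rw [e] at h
    exact h
  · apply sidorenkoHost_of_hostOn
    have h := biK_hostOn.{u} (adjInd G1) (adjInd G2) H1 H2 0 1 1 (-1)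
      (fun x y => by simpa using a0 x y) (fun x y => by linarith [a1 x y]) (by simpa using p0)
      (by linarith)
    have e : biK (adjInd G1) (adjInd G2) 0 1 1 (-1) = adjInd (disjProd G1 G2) := by
      funext a b
      have hadj : (disjProd G1 G2).Adj a b ↔ (G1.Adj a.1 b.1 ∨ G2.Adj a.2 b.2) := Iff.rfl
      unfold biK adjInd
      by_cases g1 : G1.Adj a.1 b.1 <;> by_cases g2 : G2.Adj a.2 b.2 <;> simp [hadj, g1, g2]
    rw [e] at h
    exact h

end Vale.Agent.P050
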